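import Crest.Agent.N067.H.Tan

/-!
# Row 67, block W (helper47): the pointwise algebra of the master inequality.
-/

set_option autoImplicit false

open InnerProductSpace
open scoped RealInnerProductSpace Gradient

namespace Crest.Agent.N067.W

open Crest.Agent.R077 H

noncomputable section

variable {n : ℕ}

/-- the integrand of (I1) divided by `dens` -/
def hh1 (X V gC : EE n) (ch b bu s G : ℝ) : ℝ := b * ch ^ 2 * G +
  ⟪X, ((bu + 2 * s * b) * ch ^ 2) • X + (2 * b * ch ^ 2) • V + (2 * b * ch) • gC⟫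

/-- the integrand of (I2) divided by `dens` -/
def hh2 (v : EE n → ℝ) (x X V gC L : EE n) (ch c cu s E : ℝ) : ℝ :=
  tf v x (((cu + 2 * s * c) * ch ^ 2) • X + (2 * c * ch ^ 2) • V + (2 * c * ch) • gC) L +
    c * ch ^ 2 * E

variable {v : EE n → ℝ} {x X L U gT : EE n} {ch chd sg b bu s c cu k P Kp trc l CH ε be : ℝ}

theorem hh1_eq (V : EE n) : hh1 X V (chd • (gT - sg • ∇ (dd v) x)) ch b bu s
      (-P + (k - 1) * ‖X‖ ^ 2 + Kp) =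
    ch ^ 2 * ((bu + 2 * s * b + b * (k - 1)) * ‖X‖ ^ 2 + 2 * b * ⟪X, V⟫ - b * P + b * Kp) +
      2 * b * ch * chd * ⟪X, gT⟫ - b * (2 * ch * chd * (sg * ⟪∇ (dd v) x, X⟫)) := by
  simp only [hh1, inner_add_right, inner_sub_right, real_inner_smul_right,
    real_inner_self_eq_norm_sq, real_inner_comm X (∇ (dd v) x)]
  ring

theorem hh2_eq (V : EE n) (E : ℝ) : hh2 v x X V (chd • (gT - sg • ∇ (dd v) x)) L ch c cu s E =
    ch ^ 2 * ((cu + 2 * s * c) * tf v x X L + 2 * c * tf v x V L + c * E) +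
      2 * c * ch * chd * tf v x gT L := by
  rw [hh2, sub_eq_add_neg, ← neg_smul]
  simp only [tf_add, tf_smul, tf_nn]
  ring

theorem cross1 (hb : 0 ≤ b) : -(b / 40000 * ‖X‖ ^ 2 * ch ^ 2 + 40000 * b * chd ^ 2 * ‖gT‖ ^ 2) ≤
    2 * b * ch * chd * ⟪X, gT⟫ := by
  have h := sq_nonneg ‖ch • X + (40000 * chd) • gT‖
  rw [norm_add_sq_real, norm_smul, norm_smul, real_inner_smul_left, real_inner_smul_right, mul_pow,
    mul_pow, Real.norm_eq_abs, Real.norm_eq_abs, sq_abs, sq_abs] at h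
  nlinarith [mul_nonneg hb h]

theorem cross2 (hv : Sol v) (c0 : 0 ≤ c) (c1 : c ≤ 12 / 5 * b) (b1 : b ≤ 6 / 5) (hL : ‖L‖ ≤ l) :
    -(l ^ 2 / 400 * ch ^ 2 + 20000 * b * chd ^ 2 * ‖gT‖ ^ 2) ≤
      11 / 10 * (2 * c * ch * chd * tf v x gT L) := by
  have l0 : 0 ≤ l := (norm_nonneg _).trans hL
  have b0 : 0 ≤ b := by linarith
  have h2 : |tf v x gT L| ≤ 2 * (‖gT‖ * l) := (abs_tf_le hv x gT L).trans (by gcongr)
  have h3 : |2 * c * ch * chd * tf v x gT L| ≤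
      2 * (12 / 5 * b) * |ch| * |chd| * (2 * (‖gT‖ * l)) := by
    rw [abs_mul, abs_mul, abs_mul, abs_of_nonneg (by positivity : 0 ≤ 2 * c)]
    gcongr
  have h4 := sq_nonneg (l * |ch| - 2112 * (b * |chd| * ‖gT‖))
  have h5 : b * (b * chd ^ 2 * ‖gT‖ ^ 2) ≤ 6 / 5 * (b * chd ^ 2 * ‖gT‖ ^ 2) := by gcongr
  have h6 : 0 ≤ b * chd ^ 2 * ‖gT‖ ^ 2 := by positivity
  rw [← sq_abs ch, ← sq_abs chd] at *
  linear_combination 11 / 10 * (abs_le.1 h3).1 + 1 / 400 * h4 + 2112 ^ 2 / 400 * h5 +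
    (20000 - 2112 ^ 2 / 400 * (6 / 5)) * h6

/-- the range where the quadratic form is positive -/
theorem alg_low (hv : Sol v) (ht : tt v x ≤ 1 / 10000) (hε0 : 0 ≤ ε) (hε : ε ≤ 1 / 10000)
    (h : Adm (bu + 2 * s * b + b * (k - 1)) b s) (b0 : 1 / 2 ≤ b) (b1 : b ≤ 6 / 5) (hL : ‖L‖ ≤ l)
    (htr : 6 - 6 * tt v x ≤ trc) :
    ch ^ 2 * ((1 + ε) * ‖s • X + ((-(11 / 10 : ℝ)) • L + U)‖ ^ 2 +
        b / 40000 * ‖X‖ ^ 2 + l ^ 2 / 200 + b * Kp) ≤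
      hh1 X ((-(11 / 10 : ℝ)) • L + U) (chd • (gT - sg • ∇ (dd v) x)) ch b bu s
          (-P + (k - 1) * ‖X‖ ^ 2 + Kp) +
        11 / 10 * hh2 v x X ((-(11 / 10 : ℝ)) • L + U) (chd • (gT - sg • ∇ (dd v) x)) L ch (6 / 5) 0 s
          (trc * l ^ 2 - 2 * tf v x L L - CH * tt v x * l) +
        (ch ^ 2 * (20000 * ‖U‖ ^ 2 + b * P + 350 * CH ^ 2 * (b * tt v x ^ 2)) +
          60000 * b * chd ^ 2 * ‖gT‖ ^ 2 + b * (2 * ch * chd * (sg * ⟪∇ (dd v) x, X⟫))) := by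
  have t0 := hv.tt_nonneg x
  have l0 : 0 ≤ l := (norm_nonneg _).trans hL
  have q := quadT v x t0 ht X L U h hε0 hε (σ := l ^ 2) (by gcongr) htr
  rw [tf_add, tf_smul, tf_smul] at q
  have q1 := cross1 (X := X) (gT := gT) (ch := ch) (chd := chd) h.b0
  have q2 := cross2 (x := x) (gT := gT) (ch := ch) (chd := chd) (c := 6 / 5) hv (by norm_num)
    (by linarith) b1 hL
  have q3 : b / 20 * ‖X‖ ^ 2 ≤ (bu + 2 * s * b + b * (k - 1) - s ^ 2) * ‖X‖ ^ 2 := by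
    gcongr; nlinarith [h.h3]
  have q4 := sq_nonneg (l - 264 * (CH * tt v x))
  have q6 : 1 / 2 * (CH * tt v x) ^ 2 ≤ b * (CH * tt v x) ^ 2 := by gcongr
  have q7 := sq_nonneg (CH * tt v x)
  rw [hh1_eq, hh2_eq]
  generalize (-(11 / 10 : ℝ)) • L + U = V at *
  have q5 : (1 + ε) * ‖s • X + V‖ ^ 2 + b / 20000 * ‖X‖ ^ 2 + 3 / 400 * l ^ 2 + b * Kp ≤
      ((bu + 2 * s * b + b * (k - 1)) * ‖X‖ ^ 2 + 2 * b * ⟪X, V⟫ - b * P + b * Kp) +
      11 / 10 * ((0 + 2 * s * (6 / 5)) * tf v x X L + 2 * (6 / 5) * tf v x V L +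
        6 / 5 * (trc * l ^ 2 - 2 * tf v x L L - CH * tt v x * l)) +
      (20000 * ‖U‖ ^ 2 + b * P + 350 * CH ^ 2 * (b * tt v x ^ 2)) := by
    linear_combination q + 1 / 1000 * q3 + 1 / 400 * q4 + 350 * q6 + (175 - 264 ^ 2 / 400) * q7
  linear_combination mul_le_mul_of_nonneg_left q5 (sq_nonneg ch) + q1 + q2

/-- the top range -/
theorem alg_top (hv : Sol v) (hε0 : 0 ≤ ε) (hε : ε ≤ 1) (b0 : 0 ≤ b) (b1 : b ≤ 6 / 5) (s0 : 0 ≤ s)
    (s1 : s ≤ 11 / 10) (s2 : s ≤ 2 * b)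
    (ha : (1 + ε) * s ^ 2 + b / 100 ≤ bu + 2 * s * b + b * (k - 1) + be)
    (c0 : 0 ≤ c) (c1 : c ≤ 12 / 5 * b) (cu1 : |cu| ≤ 24 / 5 * b) (hL : ‖L‖ ≤ l) (hU : ‖U‖ ≤ 20 * l)
    (htr : 0 ≤ trc) :
    ch ^ 2 * ((1 + ε) * ‖s • X + ((-(11 / 10 : ℝ)) • L + U)‖ ^ 2 + b / 40000 * ‖X‖ ^ 2 + b * Kp) ≤
      hh1 X ((-(11 / 10 : ℝ)) • L + U) (chd • (gT - sg • ∇ (dd v) x)) ch b bu s
          (-P + (k - 1) * ‖X‖ ^ 2 + Kp) +
        11 / 10 * hh2 v x X ((-(11 / 10 : ℝ)) • L + U) (chd • (gT - sg • ∇ (dd v) x)) L ch c cu s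
          (trc * l ^ 2 - 2 * tf v x L L - CH * tt v x * l) +
        (ch ^ 2 * (b * P + 350 * CH ^ 2 * (b * tt v x ^ 2) + be * ‖X‖ ^ 2 + 4000000 * l ^ 2) +
          60000 * b * chd ^ 2 * ‖gT‖ ^ 2 + b * (2 * ch * chd * (sg * ⟪∇ (dd v) x, X⟫))) := by
  have t0 := hv.tt_nonneg x
  have l0 : 0 ≤ l := (norm_nonneg _).trans hL
  have q1 := cross1 (X := X) (gT := gT) (ch := ch) (chd := chd) b0
  have q2 := cross2 (x := x) (gT := gT) (ch := ch) (chd := chd) hv c0 c1 b1 hL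
  have hV : ‖(-(11 / 10 : ℝ)) • L + U‖ ≤ 22 * l := by
    refine (norm_add_le _ _).trans ?_
    rw [norm_smul, norm_neg, Real.norm_of_nonneg (by norm_num)]; linarith
  rw [hh1_eq, hh2_eq]
  generalize (-(11 / 10 : ℝ)) • L + U = V at *
  rw [norm_add_sq_real, norm_smul, mul_pow, Real.norm_eq_abs, sq_abs, real_inner_smul_left]
  have X0 := norm_nonneg X
  have c2 : c ≤ 3 := by linarith
  have a1 : (1 + ε) * ‖V‖ ^ 2 ≤ 2 * (22 * l) ^ 2 := by gcongr; linarith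
  have a2 := mul_le_mul_of_nonneg_right ha (sq_nonneg ‖X‖)
  have a3 : |(2 * b - 2 * (1 + ε) * s) * ⟪X, V⟫| ≤ 10 * b * (‖X‖ * (22 * l)) := by
    rw [abs_mul]
    gcongr
    · exact abs_le.2 ⟨by nlinarith, by nlinarith⟩
    · exact (abs_real_inner_le_norm _ _).trans (by gcongr)
  have a4 : |(cu + 2 * s * c) * tf v x X L| ≤ 11 * b * (2 * (‖X‖ * l)) := by
    rw [abs_mul]
    gcongr
    · refine (abs_add_le _ _).trans ?_
      rw [abs_of_nonneg (by positivity : 0 ≤ 2 * s * c)]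
      nlinarith
    · exact (abs_tf_le hv x X L).trans (by gcongr)
  have a5 : |2 * c * tf v x V L| ≤ 2 * 3 * (2 * (22 * l * l)) := by
    rw [abs_mul, abs_of_nonneg (by positivity)]
    gcongr
    exact (abs_tf_le hv x V L).trans (by gcongr)
  have a6 : |c * tf v x L L| ≤ 3 * (2 * (l * l)) := by
    rw [abs_mul, abs_of_nonneg c0]
    gcongr
    exact (abs_tf_le hv x L L).trans (by gcongr)
  have a7 : c * (CH * tt v x * l) ≤ 12 / 5 * b * ((CH * tt v x) ^ 2 + l ^ 2) :=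
    (mul_le_mul_of_nonneg_left (by nlinarith [sq_nonneg (CH * tt v x - l)]) c0).trans
      (mul_le_mul_of_nonneg_right c1 (by positivity))
  have a8 : 0 ≤ c * (trc * l ^ 2) := by positivity
  have a9 : 0 ≤ b * (CH * tt v x) ^ 2 := by positivity
  have a10 : b * l ^ 2 ≤ 6 / 5 * l ^ 2 := by gcongr
  have a11 : 0 ≤ b * ‖X‖ ^ 2 := by positivity
  have a12 := mul_nonneg b0 (sq_nonneg (‖X‖ - 24420 * l))
  have q5 : (1 + ε) * (s ^ 2 * ‖X‖ ^ 2 + 2 * (s * ⟪X, V⟫) + ‖V‖ ^ 2) + b / 20000 * ‖X‖ ^ 2 +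
      l ^ 2 / 400 + b * Kp ≤
      ((bu + 2 * s * b + b * (k - 1)) * ‖X‖ ^ 2 + 2 * b * ⟪X, V⟫ - b * P + b * Kp) +
      11 / 10 * ((cu + 2 * s * c) * tf v x X L + 2 * c * tf v x V L +
        c * (trc * l ^ 2 - 2 * tf v x L L - CH * tt v x * l)) +
      (b * P + 350 * CH ^ 2 * (b * tt v x ^ 2) + be * ‖X‖ ^ 2 + 4000000 * l ^ 2) := by
    linear_combination a1 + a2 + (abs_le.1 a3).1 + 11 / 10 * (abs_le.1 a4).1 +
      11 / 10 * (abs_le.1 a5).1 + 11 / 5 * (abs_le.1 a6).2 + 11 / 10 * a7 + 11 / 10 * a8 +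
      (350 - 66 / 25) * a9 + (24420 ^ 2 / 200 + 66 / 25) * a10 + (1 / 200 - 1 / 20000) * a11 +
      1 / 200 * a12 + (4000000 - 968 - 1452 / 5 - 66 / 5 - 1 / 400 -
        6 / 5 * (24420 ^ 2 / 200 + 66 / 25)) * sq_nonneg l
  linear_combination mul_le_mul_of_nonneg_left q5 (sq_nonneg ch) + q1 + q2

end

end Crest.Agent.N067.W
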