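import Crest.Agent.N067.W.Core
import Crest.Agent.N067.M.Bas
import Crest.Agent.N067.H.Tan

/-!
# Row 67, block W (helper47): the weak inequality on `M.Dat`, in terms of `rp`, `rm`.

`thD D`, `thD D.flip` = the coefficients of the two sides, `uD D = log U`, `GD` = the lower bound
of `Δ_μ u`.  Input `Br`, output `Br.out : BrOut`.
-/

set_option autoImplicit false

open MeasureTheory Laplacian InnerProductSpace Topology Filter Set Metric
open scoped RealInnerProductSpace ContDiff Gradient NNReal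

namespace Crest.Agent.N067.W

open Crest.Agent.R077 V M

noncomputable section

variable {n : ℕ} {D : Dat n} {x : EE n}

/-- **(I2), tangential form** -/
theorem dom_hardyT (n : ℕ) : ∃ C : ℝ, 0 ≤ C ∧ ∀ (I : Finset (Fin n)) (c : EE n) (r0 : ℝ)
    (v w m : EE n → ℝ) (Ω S : Set (EE n)), Sol v → 0 < r0 → Dom Ω S w m →
    Integrable (fun x => psi v x ^ 2 * (H.tf v x (∇ m x) (∇ (H.lr I c r0) x) + m x *
      (H.trT v I x / rh I c r0 x ^ 2 - 2 * H.tf v x (∇ (H.lr I c r0) x) (∇ (H.lr I c r0) x) -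
        C * tt v x / rh I c r0 x))) ∧
    ∫ x, psi v x ^ 2 * (H.tf v x (∇ m x) (∇ (H.lr I c r0) x) + m x *
      (H.trT v I x / rh I c r0 x ^ 2 - 2 * H.tf v x (∇ (H.lr I c r0) x) (∇ (H.lr I c r0) x) -
        C * tt v x / rh I c r0 x)) ≤ 0 := by
  obtain ⟨C, C0, hC⟩ := H.hardyT n
  refine ⟨C, C0, fun I c r0 v w m Ω S hv hr h => ?_⟩
  have ig : Integrable fun x => ‖∇ m x‖ := h.int.mono'
    (measurable_grad m).norm.aestronglyMeasurable (h.grad.mono fun x hx => by rwa [norm_norm])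
  refine (fun hi => ⟨hi, hC I c r0 v m _ hv hr h.lip h.nonneg h.integrable ig hi
    (ae_of_all _ fun x _ => le_rfl)⟩) ?_
  have mtt := (hv.tt_cd 0).continuous.measurable
  have mr := (H.cd_rh (I := I) (c := c) hr).continuous.measurable
  have mt : Measurable (H.trT v I) := ((measurable_const.sub mtt).mul_const _).sub
    (Finset.measurable_sum _ fun i _ => (measurable_pdv _ i).pow_const 2)
  have mf : ∀ {p q : EE n → EE n}, Measurable p → Measurable q →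
      Measurable fun x => H.tf v x (p x) (q x) := fun hp hq =>
    ((measurable_const.sub mtt).mul (hp.inner hq)).sub
      (((measurable_grad _).inner hp).mul ((measurable_grad _).inner hq))
  refine (h.int.const_mul (2 * r0⁻¹ + ((n + 1) / r0 ^ 2 + 4 * (r0⁻¹ * r0⁻¹) + C * 1 / r0))).mono'
    (((hv.psi_sm.continuous.pow 2).measurable.mul ((mf (measurable_grad _)
      (measurable_grad _)).add (h.cont.measurable.mul (((mt.div (mr.pow_const 2)).sub ((mf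
          (measurable_grad _) (measurable_grad _)).const_mul 2)).sub
            ((mtt.const_mul C).div mr))))).aestronglyMeasurable) ?_
  filter_upwards [h.grad] with x hx
  have r1 := le_rh (r0 := r0) I c x
  have hl : ‖∇ (H.lr I c r0) x‖ ≤ r0⁻¹ := (H.norm_grad_lr hr x).trans (inv_anti₀ hr r1)
  have w0 : 0 ≤ w x := (h.nonneg x).trans (h.le x)
  have b2 : |H.trT v I x / rh I c r0 x ^ 2| ≤ (n + 1) / r0 ^ 2 := by
    rw [abs_div, abs_of_nonneg (sq_nonneg (rh I c r0 x))]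
    have := H.abs_trT_le (I := I) hv x
    gcongr
  have b3 : |2 * H.tf v x (∇ (H.lr I c r0) x) (∇ (H.lr I c r0) x)| ≤ 4 * (r0⁻¹ * r0⁻¹) := by
    have a1 := H.abs_tf_le hv x (∇ (H.lr I c r0) x) (∇ (H.lr I c r0) x)
    have a2 := mul_le_mul hl hl (norm_nonneg _) (inv_pos.2 hr).le
    rw [abs_mul, abs_two]; linarith
  have b4 : |H.tf v x (∇ m x) (∇ (H.lr I c r0) x)| ≤ 2 * r0⁻¹ * w x := by
    have a1 := H.abs_tf_le hv x (∇ m x) (∇ (H.lr I c r0) x)
    have a2 := mul_le_mul hx hl (norm_nonneg _) w0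
    linarith
  have b5 : |C * tt v x / rh I c r0 x| ≤ C * 1 / r0 := by
    have t0 := hv.tt_nonneg x
    have t1 := tt_le_one v x
    rw [abs_of_nonneg (div_nonneg (mul_nonneg C0 t0) (hr.le.trans r1))]
    gcongr
  rw [Real.norm_eq_abs, abs_mul, abs_of_nonneg (sq_nonneg _), add_mul]
  refine (mul_le_of_le_one_left (abs_nonneg _) (psi_sq_le hv x)).trans
    ((abs_add_le _ _).trans (add_le_add b4 ?_))
  rw [abs_mul, abs_of_nonneg (h.nonneg x), mul_comm]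
  exact mul_le_mul ((abs_sub _ _).trans (add_le_add ((abs_sub _ _).trans (add_le_add b2 b3)) b5))
    (h.le x) (h.nonneg x) (by positivity)

/-! ### the flip -/

theorem flip_rm (D : Dat n) : D.flip.rm = D.rp := by
  rw [Dat.rm, Dat.rp]; exact congrArg (fun v => rt D.β v D.ρm) (ng_ng D.v)

theorem flip_Om (hv : Sol D.v) : D.flip.Om = D.Om := Val_ng hv _ _ _

theorem flip_U (D : Dat n) : D.flip.U = D.U := funext fun x => by
  rw [Dat.U, flip_rm, add_comm (D.flip.h _), max_comm (D.flip.h _)]; rfl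

/-! ### definitions -/

open Classical in
/-- the coefficient of the `+` side: `∇ log U = - thD D • ∇ rp - thD D.flip • ∇ rm` -/
def thD (D : Dat n) (x : EE n) : ℝ := if x ∈ D.Om then
  cw D.κ0 0 (D.h (D.rp x)) (D.h (D.rm x)) * |D.hd (D.rp x)| / D.U x else 0

/-- `u = log U` -/
def uD (D : Dat n) (x : EE n) : ℝ := Real.log (D.U x)

open Classical in
/-- the potential of the `+` side -/
def potD (D : Dat n) (ε ηt C : ℝ) (x : EE n) : ℝ :=
  (if D.rp x * Bn D.v x ≤ ηt then 0 else (1 + ε) * hsq (dd D.v) x) + C * tt D.v x ^ 2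

/-- the lower bound of `Δ_μ u` -/
def GD (D : Dat n) (kap : ℝ → ℝ) (ε ηt C η : ℝ) (x : EE n) : ℝ :=
  -(thD D x * D.rp x * potD D ε ηt C x + thD D.flip x * D.rm x * potD D.flip ε ηt C x)
    + ((1 - η) * kap (D.U x) / ((1 + ε + D.κ0) * (1 + D.κ0)) - 1) * ‖∇ (uD D) x‖ ^ 2
    + η * D.κ0 / 4 * (thD D x * ‖∇ D.rp x‖ ^ 2 / D.rp x + thD D.flip x * ‖∇ D.rm x‖ ^ 2 / D.rm x)

/-- the second order inequality at the active points of the `+` side -/
def SupD (D : Dat n) (ε ηt C : ℝ) : Prop := ∀ x ∈ D.Om, D.rp x * ph0 D.v x ≤ 2 / D.κ0 →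
  DifferentiableAt ℝ D.rp x → Sup D.β D.v D.ρm ε ηt C x

theorem big_sup {β : Bo} {ε ηt C : ℝ} (h : XAt n β ε ηt C) (K lam κ0 : ℝ) :
    Big n K lam κ0 β fun D => SupD D ε ηt C ∧ SupD D.flip ε ηt C := by
  refine big_M fun C2 => ?_
  obtain ⟨M0, h0, h⟩ := h C2 (2 / κ0)
  refine ⟨M0, fun D C1 rs e1 e2 e3 hM ok => ?_⟩
  subst e1 e2 e3
  exact ⟨fun x hx h1 h2 => (h _ _ ok.pos x (Val_mono (by linarith) hM hx) h1 h2).1,
    fun x hx h1 h2 => (h _ _ (ps_ng ok.pos) x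
      (Val_mono (by linarith) hM hx) h1 h2).1⟩

/-- the input of the bridge -/
structure Br (D : Dat n) (H H1 H2 kap : ℝ → ℝ) (ε ηt C η : ℝ) : Prop where
  bas : D.Bas
  k0 : 0 < D.κ0
  k1 : D.κ0 < 1
  sp : SupD D ε ηt C
  sm : SupD D.flip ε ηt C
  hH : ∀ y, 0 < y → H y = D.h (1 / y)
  hH1 : ∀ y, 0 < y → H1 y = -(D.hd (1 / y) / y ^ 2)
  mhd : Measurable D.hd
  des : HDes H H1 H2
  e0 : 0 ≤ ε
  η1 : η ≤ 1
  e1 : ε ≤ η * D.κ0 / 4
  mkap : Measurable kap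
  bkap : ∃ A, ∀ y, |kap y| ≤ A
  kato : ∀ a b, 0 < a → 0 < b → Kato H H1 H2 D.κ0 a b (kap (U0 D.κ0 (H a) (H b)))

/-- the output of the bridge -/
structure BrOut (D : Dat n) (kap : ℝ → ℝ) (ε ηt C η : ℝ) : Prop where
  tp : D.Th' (thD D)
  tm : D.flip.Th' (thD D.flip)
  lp : LocallyLipschitzOn D.Om D.rp
  lm : LocallyLipschitzOn D.Om D.rm
  lU : LocallyLipschitzOn D.Om D.U
  lu : LocallyLipschitzOn D.Om (uD D)
  pos : ∀ x ∈ D.Om, 0 < D.U x
  gU : ∀ᵐ x, x ∈ D.Om → ∇ D.U x = D.U x • ∇ (uD D) x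
  grad : ∀ᵐ x, x ∈ D.Om → ∇ (uD D) x = -(thD D x • ∇ D.rp x + thD D.flip x • ∇ D.rm x)
  ms : AEStronglyMeasurable (GD D kap ε ηt C η) (volume.restrict D.Om)
  bd : ∃ A : ℝ, ∀ᵐ x, x ∈ D.Om → ‖∇ (uD D) x‖ ≤ A ∧ |GD D kap ε ηt C η x| ≤ A
  weak : ∀ ζ : EE n → ℝ, LocallyLipschitzOn D.Om ζ → (∀ x, 0 ≤ ζ x) → HasCompactSupport ζ →
    tsupport ζ ⊆ D.Om → ∫ x, ζ x * GD D kap ε ηt C η x * psi D.v x ^ 2
      ≤ -∫ x, gin (uD D) ζ x * psi D.v x ^ 2

variable {H H1 H2 kap : ℝ → ℝ} {ε ηt C η : ℝ}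

theorem bas_flip (B : D.Bas) : D.flip.Bas := by
  have h1 := B.p
  have h2 := B.m
  rw [← flip_Om B.sol] at h1 h2
  rw [← ng_ng D.v] at h1
  exact { B with
    pos := ps_ng B.pos
    ph := fun x => (B.ph x).trans_eq (ph0_ng _ x).symm
    p := h2
    m := h1 }

theorem Br.flip (R : Br D H H1 H2 kap ε ηt C η) : Br D.flip H H1 H2 kap ε ηt C η :=
  { R with
    bas := bas_flip R.bas
    sp := R.sm
    sm := by
      have : D.flip.flip = D := by rw [Dat.flip, Dat.flip]; simp only [ng_ng]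
      rw [this]; exact R.sp }

theorem sd_lip {β : Bo} {v : EE n → ℝ} {ρm M : ℝ} {Ω : Set (EE n)} (h : Sd β v ρm M Ω)
    (hΩ : IsOpen Ω) : LocallyLipschitzOn Ω (rt β v ρm) := by
  have := ll_comp (h.sc.locLip hΩ) (F := fun y : ℝ => y⁻¹) fun x hx =>
    contDiffAt_inv ℝ (inv_ne_zero (by linarith [h.eight hx]))
  simpa only [ph, inv_inv] using this

theorem lb_pot (B : D.Bas) : LB D.Om (potD D ε ηt C) := by
  classical
  have c1 : Continuous (hsq (dd D.v)) := B.sol.hsq_sm.continuous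
  have c2 : ContinuousOn (fun x => D.rp x * Bn D.v x) D.Om :=
    (B.p.cont B.op).mul c1.sqrt.continuousOn
  refine LB.add ⟨?_, fun K _ hK => ?_⟩
    (LB.of_cont B.op (continuous_const.mul (B.sol.tt_sm.continuous.pow 2)).continuousOn)
  · have m : Measurable fun z : ℝ × ℝ => if z.1 ≤ ηt then 0 else (1 + ε) * z.2 :=
      Measurable.ite (measurableSet_le (by fun_prop) measurable_const) measurable_const (by fun_prop)
    exact (m.comp_aemeasurable ((c2.aemeasurable B.op.measurableSet).prodMk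
      c1.aemeasurable)).aestronglyMeasurable
  · obtain ⟨A, hA⟩ := hK.exists_bound_of_continuousOn (continuous_const.mul c1 :
      Continuous fun x => (1 + ε) * hsq (dd D.v) x).continuousOn
    refine ⟨A, fun x hx => ?_⟩
    split_ifs
    · exact abs_zero.trans_le ((norm_nonneg _).trans (hA x hx))
    · exact hA x hx

namespace Br

variable (R : Br D H H1 H2 kap ε ηt C η)
include R

theorem rp_pos (hx : x ∈ D.Om) : 0 < D.rp x := by linarith [R.bas.rp8 hx]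
theorem rm_pos (hx : x ∈ D.Om) : 0 < D.rm x := by linarith [R.bas.rm8 hx]

theorem H_inv {r : ℝ} (hr : 0 < r) : H r⁻¹ = D.h r := by
  rw [R.hH _ (inv_pos.2 hr), one_div, inv_inv]

theorem H1_inv {r : ℝ} (hr : 0 < r) : H1 r⁻¹ = r ^ 2 * |D.hd r| := by
  have h1 := R.des.pos1 _ (inv_pos.2 hr)
  rw [R.hH1 _ (inv_pos.2 hr), one_div, inv_inv, inv_pow, div_inv_eq_mul] at h1 ⊢
  rw [abs_of_neg (by nlinarith [sq_pos_of_pos hr])]; ring

theorem h_pos {r : ℝ} (hr : 0 < r) : 0 < D.h r := R.H_inv hr ▸ R.des.pos _ (inv_pos.2 hr)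

theorem side : Side D.v (ph D.β D.v D.ρm) D.Om ε (potD D ε ηt C)
    fun x => D.κ0 * ph D.β (ng D.v) D.ρm x ≤ ph D.β D.v D.ρm x := by
  have B := R.bas
  have sup : ∀ x ∈ D.Om, D.κ0 * ph D.β (ng D.v) D.ρm x ≤ ph D.β D.v D.ρm x →
      DifferentiableAt ℝ (ph D.β D.v D.ρm) x → Sup D.β D.v D.ρm ε ηt C x := fun x hx h1 h2 => by
    have p0 := R.rp_pos hx
    have m0 := R.rm_pos hx
    refine R.sp x hx ?_ ?_
    · have h3 : D.κ0 * D.rp x ≤ D.rm x := by
        change D.κ0 * (D.rm x)⁻¹ ≤ (D.rp x)⁻¹ at h1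
        rwa [← div_eq_mul_inv, ← one_div, div_le_div_iff₀ m0 p0, one_mul] at h1
      have h4 := B.min_le hx
      rw [mul_one_div, le_div_iff₀ (B.ph x)] at h4
      have h5 : D.κ0 * D.rp x ≤ min (D.rp x) (D.rm x) := le_min (by nlinarith [R.k1]) h3
      rw [le_div_iff₀ R.k0]
      nlinarith [mul_le_mul_of_nonneg_right h5 (B.ph x).le]
    · have := h2.fun_inv (inv_pos.2 p0).ne'
      simp only [ph, inv_inv] at this
      exact this
  refine ⟨B.p.sc, fun x hx => inv_pos.2 (R.rp_pos hx), fun x hx a => ?_,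
    fun x hx h1 h2 a => by linarith [(sup x hx h1 h2).psd a], fun x hx h1 h2 a e he => ?_⟩
  · have h1 := hb_add_nonneg B.sol x a
    have h2 : phi (dd D.v) x ≤ 2 * ph D.β D.v D.ρm x := by
      rw [ph, ← div_eq_mul_inv]; exact (le_div_iff₀ (R.rp_pos hx)).2 (B.p.hi x hx)
    nlinarith [mul_le_mul_of_nonneg_right h2 (sq_nonneg ‖a‖)]
  · obtain ⟨f, h3, h4⟩ := (sup x hx h1 h2).lm a e he
    refine ⟨f, h3, le_trans (le_of_eq ?_) h4⟩
    rw [potD, Dat.rp]
    split_ifs <;> ring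

theorem ρm_pos (hx : x ∈ D.Om) : 0 < D.ρm := (R.rp_pos hx).trans_le (R.bas.p.le x hx)

theorem hρ_le (hx : x ∈ D.Om) : D.h D.ρm ≤ D.h (D.rp x) := by
  rw [← R.H_inv (R.ρm_pos hx), ← R.H_inv (R.rp_pos hx)]
  exact R.des.strictMono.monotoneOn (inv_pos.2 (R.ρm_pos hx)) (inv_pos.2 (R.rp_pos hx))
    (inv_anti₀ (R.rp_pos hx) (R.bas.p.le x hx))

theorem U_eq (x : EE n) : D.U x = U0 D.κ0 (D.h (D.rp x)) (D.h (D.rm x)) := by
  rw [Dat.U, U0, mul_max_of_nonneg _ _ (by linarith [R.k0])]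

theorem hp_le (x : EE n) : (1 + D.κ0) * D.h (D.rp x) ≤ D.U x := by
  rw [R.U_eq]; exact (le_max_left _ _).trans (le_max_right _ _)

theorem hρ_le_U (hx : x ∈ D.Om) : D.h D.ρm ≤ D.U x := by
  have := R.hp_le x
  nlinarith [R.hρ_le hx, R.k0, R.h_pos (R.rp_pos hx)]

theorem U_pos (hx : x ∈ D.Om) : 0 < D.U x := (R.h_pos (R.ρm_pos hx)).trans_le (R.hρ_le_U hx)

theorem data (h0 : 0 < D.ρm) : Data D.v (ph D.β D.v D.ρm) (ph D.β (ng D.v) D.ρm) D.Om ε
    (potD D ε ηt C) (potD D.flip ε ηt C) H H1 H2 kap D.κ0 (D.h D.ρm / 2) η where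
  sol := R.bas.sol
  op := R.bas.op
  sp := R.side
  sq := by
    have := R.flip.side
    rw [flip_Om R.bas.sol] at this
    simp only [Dat.flip, ng_ng] at this
    exact this
  lp := lb_pot R.bas
  lq := flip_Om R.bas.sol ▸ lb_pot R.flip.bas
  des := R.des
  k0_pos := R.k0
  k0_lt := R.k1
  Umin_pos := half_pos (R.h_pos h0)
  e_pos := R.e0
  η_le := R.η1
  e_le := R.e1
  mkap := R.mkap
  bkap := R.bkap
  kato a ha b hb _ := R.kato a b ha hb

theorem UU_eq (hx : x ∈ D.Om) :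
    UU H D.κ0 (D.h D.ρm / 2) (ph D.β D.v D.ρm) (ph D.β (ng D.v) D.ρm) x = D.U x := by
  change max (U0 _ (H (D.rp x)⁻¹) (H (D.rm x)⁻¹)) _ = _
  rw [R.H_inv (R.rp_pos hx), R.H_inv (R.rm_pos hx), ← R.U_eq]
  exact max_eq_left (by linarith [R.hρ_le_U hx, R.h_pos (R.ρm_pos hx)])

theorem am_eq (hx : x ∈ D.Om) :
    am H H1 D.κ0 (D.h D.ρm / 2) (ph D.β D.v D.ρm) (ph D.β (ng D.v) D.ρm) x = thD D x * D.rp x := by
  have p0 := R.rp_pos hx
  have h1 := R.hρ_le_U hx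
  have h2 := R.h_pos (R.ρm_pos hx)
  rw [R.U_eq] at h1
  rw [am, R.UU_eq hx, thD, if_pos hx]
  change cw _ _ (H (D.rp x)⁻¹) (H (D.rm x)⁻¹) * H1 (D.rp x)⁻¹ * (D.rp x)⁻¹ / _ = _
  rw [R.H_inv p0, R.H_inv (R.rm_pos hx), R.H1_inv p0, cw, cw, if_neg (by linarith),
    if_neg (not_le.2 (h2.trans_le h1))]
  field_simp

theorem th' : D.Th' (thD D) := by
  classical
  have cH : ∀ {r : EE n → ℝ}, ContinuousOn r D.Om → (∀ x ∈ D.Om, 0 < r x) →
      ContinuousOn (fun x => D.h (r x)) D.Om := fun {r} c h0 =>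
    ContinuousOn.congr (f := fun x => H (r x)⁻¹) (fun x hx =>
      (R.des.hd _ (inv_pos.2 (h0 x hx))).continuousAt.comp_continuousWithinAt
        (f := fun x => (r x)⁻¹) ((c x hx).inv₀ (h0 x hx).ne')) fun x hx => (R.H_inv (h0 x hx)).symm
  have mp : ∀ {f : EE n → ℝ}, ContinuousOn f D.Om → Measurable (D.Om.piecewise f fun _ => 1) :=
    fun c => c.measurable_piecewise continuousOn_const R.bas.op.measurableSet
  have mc : Measurable fun z : ℝ × ℝ × ℝ => cw D.κ0 0 z.1 z.2.1 * |D.hd z.2.2| / U0 D.κ0 z.1 z.2.1 := by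
    have := R.mhd
    unfold cw U0
    exact ((Measurable.ite (measurableSet_le (by fun_prop) measurable_const) measurable_const
      (Measurable.ite (measurableSet_le (by fun_prop) (by fun_prop)) measurable_const
        (Measurable.ite (measurableSet_le (by fun_prop) (by fun_prop)) measurable_const
          measurable_const))).mul (by fun_prop)).div (by fun_prop)
  have m1 := (mc.comp ((mp (cH (R.bas.p.cont R.bas.op) fun _ => R.rp_pos)).prodMk
    ((mp (cH (R.bas.m.cont R.bas.op) fun _ => R.rm_pos)).prodMk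
      (mp (R.bas.p.cont R.bas.op))))).indicator R.bas.op.measurableSet
  refine ⟨?_, fun x => ?_, fun x hx => ?_, fun x hx h => ?_⟩
  · convert m1 using 1
    funext x
    by_cases hx : x ∈ D.Om
    · simp only [thD, if_pos hx, indicator_of_mem hx, Function.comp, piecewise_eq_of_mem _ _ _ hx,
        R.U_eq]
      rfl
    · rw [thD, if_neg hx, indicator_of_notMem hx]
  · unfold thD
    split_ifs with hx
    · exact div_nonneg (mul_nonneg (cw_nonneg R.k0 _ _ _) (abs_nonneg _)) (R.U_pos hx).le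
    · exact le_rfl
  · rw [thD, if_pos hx, div_mul_cancel₀ _ (R.U_pos hx).ne']
    exact mul_le_mul_of_nonneg_right (cw_le R.k0 _ _ _) (abs_nonneg _)
  · rw [thD, if_pos hx] at h
    have h1 : cw D.κ0 0 (D.h (D.rp x)) (D.h (D.rm x)) ≠ 0 := fun e => h (by simp [e])
    have h2 := R.h_pos (R.rp_pos hx)
    unfold cw at h1
    split_ifs at h1 with a b c
    · exact absurd rfl h1
    · nlinarith [R.k0, R.k1, mul_le_mul_of_nonneg_left b R.k0.le, mul_pos R.k0 h2]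
    · exact absurd rfl h1
    · exact (not_le.1 c).le

theorem grad_ph (hx : x ∈ D.Om) (hd : DifferentiableAt ℝ D.rp x) :
    ∇ (ph D.β D.v D.ρm) x = -(D.rp x ^ 2)⁻¹ • ∇ D.rp x := grad_inv hd (R.rp_pos hx).ne'

theorem th_le (hx : x ∈ D.Om) : thD D x * D.rp x ≤ 2 * H1 1 / D.h D.ρm := by
  have p8 := R.bas.rp8 hx
  have p0 := R.rp_pos hx
  have h1 := R.des.mono (inv_pos.2 p0) (mem_Ioi.2 one_pos) (inv_le_one_of_one_le₀ (by linarith))
  rw [R.H1_inv p0] at h1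
  have h2 := R.th'.le x hx
  have h3 := R.th'.nonneg x
  have h4 := abs_nonneg (D.hd (D.rp x))
  rw [le_div_iff₀ (R.h_pos (R.ρm_pos hx))]
  have h5 := mul_le_mul_of_nonneg_left (R.hρ_le_U hx) (mul_nonneg h3 p0.le)
  have h6 : D.rp x * |D.hd (D.rp x)| ≤ H1 1 := le_trans (by nlinarith [mul_nonneg p0.le h4]) h1
  nlinarith [mul_le_mul_of_nonneg_left h2 p0.le, R.k1, mul_nonneg p0.le h4]

/-- global bounds of one side -/
theorem side_bd : ∃ A : ℝ, 0 ≤ A ∧ ∀ x ∈ D.Om, ‖thD D x • ∇ D.rp x‖ ≤ A ∧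
    |thD D x * D.rp x * potD D ε ηt C x| ≤ A ∧ |thD D x * ‖∇ D.rp x‖ ^ 2 / D.rp x| ≤ A := by
  obtain ⟨K, K0, hK⟩ := hk_hsq n
  set T := |2 * H1 1 / D.h D.ρm|
  have T0 : 0 ≤ T := abs_nonneg _
  have M0 : 0 ≤ D.M := zero_le_one.trans R.bas.M1
  have e0 := R.e0
  refine ⟨T * (D.M * |D.ρm|) + T * ((1 + ε) * K + |C|) + T * (D.M * |D.ρm|) ^ 2, by positivity,
    fun x hx => ?_⟩
  have p0 := R.rp_pos hx
  have t0 := R.th'.nonneg x
  have h1 : thD D x * D.rp x ≤ T := (R.th_le hx).trans (le_abs_self _)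
  have h2 : ‖∇ D.rp x‖ / D.rp x ≤ D.M * |D.ρm| := by
    rw [div_le_iff₀ p0]
    refine (R.bas.p.grad x hx).trans ?_
    have := (R.bas.p.le x hx).trans (le_abs_self _)
    change D.M * D.rp x ^ 2 ≤ _
    rw [sq, mul_assoc]
    gcongr
    exact this
  have h3 : |potD D ε ηt C x| ≤ (1 + ε) * K + |C| := by
    have a1 := hK _ R.bas.sol x
    have a2 := tt_le_one D.v x
    have a3 := R.bas.sol.tt_nonneg x
    have a4 := hsq_nonneg (dd D.v) x
    refine (abs_add_le _ _).trans (add_le_add ?_ ?_)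
    · split_ifs
      · rw [abs_zero]; positivity
      · rw [abs_of_nonneg (by positivity)]
        gcongr
        nlinarith
    · rw [abs_mul, abs_of_nonneg (sq_nonneg (tt D.v x))]
      exact mul_le_of_le_one_right (abs_nonneg _) (pow_le_one₀ a3 a2)
  have a1 : 0 ≤ T * (D.M * |D.ρm|) := by positivity
  have a2 : 0 ≤ T * ((1 + ε) * K + |C|) := by positivity
  have a3 : 0 ≤ T * (D.M * |D.ρm|) ^ 2 := by positivity
  refine ⟨?_, ?_, ?_⟩
  · rw [norm_smul, Real.norm_of_nonneg t0, show thD D x * ‖∇ D.rp x‖ =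
      thD D x * D.rp x * (‖∇ D.rp x‖ / D.rp x) by field_simp]
    linarith [mul_le_mul h1 h2 (by positivity) T0]
  · rw [abs_mul, abs_of_nonneg (mul_nonneg t0 p0.le)]
    linarith [mul_le_mul h1 h3 (abs_nonneg _) T0]
  · rw [abs_of_nonneg (by positivity), show thD D x * ‖∇ D.rp x‖ ^ 2 / D.rp x =
      thD D x * D.rp x * (‖∇ D.rp x‖ / D.rp x) ^ 2 by field_simp]
    linarith [mul_le_mul h1 (pow_le_pow_left₀ (by positivity) h2 2) (by positivity) T0]

/-- **the bridge** -/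
theorem out (h0 : 0 < D.ρm) : BrOut D kap ε ηt C η := by
  have B := R.bas
  have O := sumS (R.data h0)
  have lp := sd_lip B.p B.op
  have lm := sd_lip B.m B.op
  have fO := flip_Om B.sol
  have eU : ∀ x ∈ D.Om, UU H D.κ0 (D.h D.ρm / 2) (ph D.β D.v D.ρm) (ph D.β (ng D.v) D.ρm)
      =ᶠ[𝓝 x] D.U := fun x hx => by
    filter_upwards [B.op.mem_nhds hx] with y hy using R.UU_eq hy
  have eu : ∀ x ∈ D.Om, uu H D.κ0 (D.h D.ρm / 2) (ph D.β D.v D.ρm) (ph D.β (ng D.v) D.ρm)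
      =ᶠ[𝓝 x] uD D := fun x hx => (eU x hx).mono fun y hy => by rw [uu, hy, uD]
  have lU : LocallyLipschitzOn D.Om D.U := fun x hx => by
    obtain ⟨K, t, ht, h⟩ := (R.data h0).scU.locLip B.op hx
    exact ⟨K, t ∩ D.Om, inter_mem ht self_mem_nhdsWithin, fun y hy z hz => by
      rw [← R.UU_eq hy.2, ← R.UU_eq hz.2]; exact h hy.1 hz.1⟩
  have lu : LocallyLipschitzOn D.Om (uD D) :=
    ll_comp lU (F := Real.log) fun x hx => Real.contDiffAt_log.2 (R.U_pos hx).ne'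
  have am' : ∀ x ∈ D.Om, am H H1 D.κ0 (D.h D.ρm / 2) (ph D.β (ng D.v) D.ρm) (ph D.β D.v D.ρm) x =
      thD D.flip x * D.rm x := fun x hx => by
    have := R.flip.am_eq (fO ▸ hx)
    simp only [Dat.flip, ng_ng] at this
    exact this
  have gr : ∀ᵐ x, x ∈ D.Om → ∇ (uD D) x = -(thD D x • ∇ D.rp x + thD D.flip x • ∇ D.rm x) := by
    filter_upwards [O.grad, ae_diff B.op lp, ae_diff B.op lm] with x h1 h2 h3 hx
    have p0 := (R.rp_pos hx).ne'
    have m0 := (R.rm_pos hx).ne'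
    rw [← grad_congr (eu x hx), h1 hx, R.am_eq hx, am' x hx, R.grad_ph hx (h2 hx),
      show ∇ (ph D.β (ng D.v) D.ρm) x = _ from R.flip.grad_ph (fO ▸ hx) (h3 hx), smul_smul,
      smul_smul, neg_add, ← neg_smul, ← neg_smul]
    change (_ / (D.rp x)⁻¹ * _) • _ + (_ / (D.rm x)⁻¹ * -(D.rm x ^ 2)⁻¹) • ∇ D.rm x = _
    congr 2 <;> field_simp
  have eG : ∀ᵐ x, x ∈ D.Om → GG H H1 kap D.κ0 (D.h D.ρm / 2) ε η (ph D.β D.v D.ρm)
      (ph D.β (ng D.v) D.ρm) (potD D ε ηt C) (potD D.flip ε ηt C) x = GD D kap ε ηt C η x := by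
    filter_upwards [ae_diff B.op lp, ae_diff B.op lm] with x h2 h3 hx
    have p0 := (R.rp_pos hx).ne'
    have m0 := (R.rm_pos hx).ne'
    rw [GG, GD, R.am_eq hx, am' x hx, R.UU_eq hx, gsq_eq, gsq_eq, gsq_eq, grad_congr (eu x hx),
      R.grad_ph hx (h2 hx),
      show ∇ (ph D.β (ng D.v) D.ρm) x = _ from R.flip.grad_ph (fO ▸ hx) (h3 hx), norm_smul,
      norm_smul, mul_pow, mul_pow, Real.norm_eq_abs, Real.norm_eq_abs, sq_abs, sq_abs]
    change _ + _ * (_ * (_ / (D.rp x)⁻¹ ^ 2) +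
      _ * ((-(D.rm x ^ 2)⁻¹) ^ 2 * ‖∇ D.rm x‖ ^ 2 / (D.rm x)⁻¹ ^ 2)) = _
    congr 3 <;> field_simp
  refine ⟨R.th', R.flip.th', lp, lm, lU, lu, fun x => R.U_pos, ?_, gr, ?_, ?_,
    fun ζ h1 h2 h3 h4 => ?_⟩
  · filter_upwards [ae_diff B.op lU] with x h hx
    have := (R.U_pos hx).ne'
    rw [show ∇ (uD D) x = _ from grad_comp (h hx) (Real.hasDerivAt_log this), smul_smul,
      mul_inv_cancel₀ this, one_smul]
  · exact O.lb.ms.congr ((ae_restrict_iff' B.op.measurableSet).2 eG)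
  · obtain ⟨A, A0, hA⟩ := R.side_bd
    obtain ⟨A', A0', hA'⟩ := R.flip.side_bd
    obtain ⟨k, hk⟩ := R.bkap
    have k0 := (abs_nonneg _).trans (hk 0)
    have η0 := (R.data h0).η_nonneg
    refine ⟨(A + A') + (k + 1) * (A + A') ^ 2 + (A + A'), ?_⟩
    filter_upwards [gr] with x h hx
    obtain ⟨a1, a2, a3⟩ := hA x hx
    obtain ⟨b1, b2, b3⟩ := hA' x (fO ▸ hx)
    have c1 : ‖∇ (uD D) x‖ ≤ A + A' := by
      rw [h hx, norm_neg]; exact norm_add_le_of_le a1 b1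
    have c2 : 0 ≤ (k + 1) * (A + A') ^ 2 := by positivity
    refine ⟨by linarith, (abs_add_three _ _ _).trans (add_le_add (add_le_add ?_ ?_) ?_)⟩
    · rw [abs_neg]; exact (abs_add_le _ _).trans (add_le_add a2 b2)
    · rw [abs_mul, abs_of_nonneg (sq_nonneg ‖_‖)]
      gcongr
      refine (abs_sub _ _).trans (add_le_add ?_ abs_one.le)
      have d1 : 1 ≤ (1 + ε + D.κ0) * (1 + D.κ0) := by nlinarith [R.e0, R.k0]
      rw [abs_div, abs_mul, abs_of_nonneg (sub_nonneg.2 R.η1), abs_of_pos (one_pos.trans_le d1)]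
      refine (div_le_self (mul_nonneg (sub_nonneg.2 R.η1) (abs_nonneg _)) d1).trans ?_
      nlinarith [hk (D.U x), abs_nonneg (kap (D.U x))]
    · rw [abs_mul]
      refine (mul_le_of_le_one_left (abs_nonneg _) ?_).trans
        ((abs_add_le _ _).trans (add_le_add a3 b3))
      rw [abs_of_nonneg (by have := R.k0; positivity)]
      nlinarith [R.k0, R.k1, R.η1]
  · have z : ∀ x ∉ D.Om, x ∉ tsupport ζ := fun x hx h => hx (h4 h)
    convert O.weak ζ h1 h2 h3 h4 using 1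
    · refine integral_congr_ae (eG.mono fun x h => ?_)
      by_cases hx : x ∈ D.Om
      · simp only [h hx]
      · simp only [image_eq_zero_of_notMem_tsupport (z x hx), zero_mul]
    · congr 2 with x
      by_cases hx : x ∈ D.Om
      · rw [gin_eq, gin_eq, grad_congr (eu x hx)]
      · rw [gin_eq_zero (z x hx), gin_eq_zero (z x hx)]

end Br

/-- **(I1)** on `Dat` -/
theorem BrOut.i1 (O : BrOut D kap ε ηt C η) (hv : Sol D.v) {S : Set (EE n)} {w m : EE n → ℝ}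
    (h : Dom D.Om S w m) :
    Integrable (fun x => psi D.v x ^ 2 * (m x * GD D kap ε ηt C η x + ⟪∇ (uD D) x, ∇ m x⟫)) ∧
      ∫ x, psi D.v x ^ 2 * (m x * GD D kap ε ηt C η x + ⟪∇ (uD D) x, ∇ m x⟫) ≤ 0 :=
  let ⟨_, hA⟩ := O.bd
  h.weak hv O.ms (hA.mono fun _ h1 hx => h1 (h.sub hx)) O.weak

/-- the total amplification, for `H1 ≤ 1`, `y - c ≤ H y` -/
theorem Br.am_sum_le (R : Br D H H1 H2 kap ε ηt C η) {c : ℝ} (hc : 0 ≤ c)
    (h1 : ∀ y, 0 < y → H1 y ≤ 1 ∧ y - c ≤ H y) (hx : x ∈ D.Om) :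
    thD D x * D.rp x + thD D.flip x * D.rm x ≤ 1 + 2 * c / D.U x := by
  have p0 := R.rp_pos hx
  have m0 := R.rm_pos hx
  have U0' := R.U_pos hx
  have key : ∀ r, 0 < r → |D.hd r| * r ≤ D.h r + c := fun r hr => by
    obtain ⟨a1, a2⟩ := h1 _ (inv_pos.2 hr)
    rw [R.H1_inv hr] at a1
    rw [R.H_inv hr] at a2
    have : |D.hd r| * r ≤ r⁻¹ := by rw [← one_div, le_div_iff₀ hr]; linarith
    linarith
  have hU := R.U_eq x
  have e := cw_eq (Umin := 0) R.k0 R.k1 (R.h_pos p0) (R.h_pos m0) (hU ▸ U0')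
  have e2 : cw D.κ0 0 (D.h (D.rp x)) (D.h (D.rm x)) + cw D.κ0 0 (D.h (D.rm x)) (D.h (D.rp x)) ≤ 2 := by
    rcases cw_cases (Umin := 0) R.k0 R.k1 (R.h_pos p0) (R.h_pos m0) (hU ▸ U0') with
      ⟨a, b, -⟩ | ⟨a, b, -⟩ | ⟨a, b, -⟩ <;> linarith [R.k1]
  rw [thD, thD, if_pos hx, if_pos (flip_Om R.bas.sol ▸ hx), flip_U, flip_rm, div_mul_eq_mul_div,
    div_mul_eq_mul_div, ← add_div, one_add_div U0'.ne', div_le_div_iff_of_pos_right U0', hU, ← e]
  change _ + cw D.κ0 0 (D.h (D.rm x)) (D.h (D.rp x)) * |D.hd (D.rm x)| * _ ≤ _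
  nlinarith [mul_le_mul_of_nonneg_left (key _ p0) (cw_nonneg R.k0 0 (D.h (D.rp x)) (D.h (D.rm x))),
    mul_le_mul_of_nonneg_left (key _ m0) (cw_nonneg R.k0 0 (D.h (D.rm x)) (D.h (D.rp x))),
    mul_le_mul_of_nonneg_right e2 hc]

end

end Crest.Agent.N067.W
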