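import Crest.Agent.N067.W.Sum
import Crest.Agent.N067.V.Ball
import Crest.Agent.N067.H.Hardy

/-!
# Row 67, block W (helper47): the two integral identities of the master inequality.

`Dom` = multipliers dominated by an integrable weight; `Dom.weak` (I1), `Dom.hardy` (I2);
`ae_grad_comp` = chain rule off a countable set; `Mul.dom`, `Mul.grad` = the multiplier
`g(a) W² ch²`; `lip_cut`, `grad_cut` = the cut `ST (1 - (|d| - Th))`.
-/

set_option autoImplicit false

open MeasureTheory Laplacian InnerProductSpace Topology Filter Set Metric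
open scoped RealInnerProductSpace ContDiff Gradient NNReal

namespace Crest.Agent.N067.W

open Crest.Agent.R077 V

noncomputable section

variable {n : ℕ} {Ω S : Set (EE n)} {a u m w G W ch v : EE n → ℝ} {x : EE n}

/-! ### the chain rule almost everywhere -/

theorem ll_comp' {J : Set ℝ} {g : ℝ → ℝ} (ha : LocallyLipschitzOn Ω a) (hJ : MapsTo a Ω J)
    (hg : LocallyLipschitzOn J g) : LocallyLipschitzOn Ω fun x => g (a x) := by
  intro x hx
  obtain ⟨K, t, ht, h⟩ := ha hx
  obtain ⟨K', t', ht', h'⟩ := hg (hJ hx)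
  exact ⟨K' * K, t ∩ a ⁻¹' t',
    inter_mem ht ((ha.continuousOn x hx).tendsto_nhdsWithin hJ ht'),
    h'.comp (h.mono inter_subset_left) fun _ hy => hy.2⟩

/-- the gradient vanishes almost everywhere on a level set -/
theorem ae_level (hΩ : IsOpen Ω) (ha : LocallyLipschitzOn Ω a) (c : ℝ) :
    ∀ᵐ x, x ∈ Ω → a x = c → ∇ a x = 0 := by
  have hm : LocallyLipschitzOn Ω fun x => max (a x) c :=
    ll_lip ha (F := fun y : ℝ => max y c) (LipschitzWith.id.max_const c)
  filter_upwards [ae_diff hΩ ha, ae_diff hΩ hm] with x h1 h2 hx hc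
  have e1 := fderiv_touch (h2 hx) (h1 hx) (by simp [hc]) (Eventually.of_forall fun y =>
    le_max_left (a y) c)
  have e2 := fderiv_touch (f := fun _ => c) (h2 hx) (differentiableAt_const c) (by simp [hc])
    (Eventually.of_forall fun y => le_max_right (a y) c)
  rw [gradient, e1, ← e2]
  simp

theorem grad_comp {g : ℝ → ℝ} {g' : ℝ} (ha : DifferentiableAt ℝ a x) (hg : HasDerivAt g g' (a x)) :
    ∇ (fun y => g (a y)) x = g' • ∇ a x := ext_inner_right ℝ fun z => by
  rw [real_inner_smul_left, inner_grad, inner_grad, show fderiv ℝ (fun y => g (a y)) x = _ from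
    (hg.comp_hasFDerivAt x ha.hasFDerivAt).fderiv]
  rfl

/-- **chain rule** for a locally Lipschitz `g` with a derivative off a countable set -/
theorem ae_grad_comp {J N : Set ℝ} {g g' : ℝ → ℝ} (hΩ : IsOpen Ω) (ha : LocallyLipschitzOn Ω a)
    (hJ : MapsTo a Ω J) (hg : LocallyLipschitzOn J g) (hN : N.Countable)
    (hd : ∀ y ∈ J, y ∉ N → HasDerivAt g (g' y) y) :
    ∀ᵐ x, x ∈ Ω → ∇ (fun y => g (a y)) x = g' (a x) • ∇ a x := by
  have h1 : ∀ᵐ x, ∀ c ∈ N, x ∈ Ω → a x = c → ∇ a x = 0 :=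
    (ae_ball_iff hN).2 fun c _ => ae_level hΩ ha c
  have h2 : ∀ᵐ x, ∀ c ∈ N, x ∈ Ω → g (a x) = g c → ∇ (fun y => g (a y)) x = 0 :=
    (ae_ball_iff hN).2 fun c _ => ae_level hΩ (ll_comp' ha hJ hg) (g c)
  filter_upwards [h1, h2, ae_diff hΩ ha] with x h1 h2 h3 hx
  by_cases h : a x ∈ N
  · rw [h1 _ h hx rfl, h2 _ h hx rfl, smul_zero]
  · exact grad_comp (h3 hx) (hd _ (hJ hx) h)

/-! ### dominated multipliers -/

/-- a multiplier carried by the closed set `S ⊆ Ω` and dominated by the integrable weight `w` -/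
structure Dom (Ω S : Set (EE n)) (w m : EE n → ℝ) : Prop where
  op : IsOpen Ω
  cl : IsClosed S
  sub : S ⊆ Ω
  lip : LocallyLipschitzOn univ m
  nonneg : ∀ x, 0 ≤ m x
  zero : ∀ x ∉ S, m x = 0
  int : Integrable w
  le : ∀ x, m x ≤ w x
  grad : ∀ᵐ x, ‖∇ m x‖ ≤ w x

theorem Dom.cont (h : Dom Ω S w m) : Continuous m := continuousOn_univ.1 h.lip.continuousOn

theorem Dom.integrable (h : Dom Ω S w m) : Integrable m :=
  h.int.mono' h.cont.aestronglyMeasurable (ae_of_all _ fun x => by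
    rw [Real.norm_of_nonneg (h.nonneg x)]; exact h.le x)

theorem Dom.ev (h : Dom Ω S w m) (hx : x ∉ S) : m =ᶠ[𝓝 x] fun _ => 0 := by
  filter_upwards [h.cl.isOpen_compl.mem_nhds hx] with y hy using h.zero y hy

theorem Dom.grad_zero (h : Dom Ω S w m) (hx : x ∉ S) : ∇ m x = 0 := by
  rw [grad_congr (h.ev hx)]; simp

theorem Dom.tsupport_sub (h : Dom Ω S w m) : tsupport m ⊆ S :=
  closure_minimal (fun x hx => by_contra fun h1 => hx (h.zero x h1)) h.cl

theorem psi_sq_le (hv : Sol v) (x : EE n) : psi v x ^ 2 ≤ 1 :=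
  pow_le_one₀ (hv.psi_pos x).le (psi_le_one v x)

/-- a function which vanishes off `S`, is measurable on `Ω` and is dominated on `S` -/
theorem Dom.integrable_of (h : Dom Ω S w m) {f : EE n → ℝ} {C : ℝ}
    (hf : AEStronglyMeasurable f (volume.restrict Ω)) (h0 : ∀ x ∉ S, f x = 0)
    (hb : ∀ᵐ x, x ∈ S → |f x| ≤ C * w x) : Integrable f := by
  have e : f = S.indicator f := funext fun x => by
    by_cases hx : x ∈ S
    · rw [indicator_of_mem hx]
    · rw [indicator_of_notMem hx, h0 x hx]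
  rw [e, integrable_indicator_iff h.cl.measurableSet]
  refine ((h.int.const_mul C).integrableOn (s := S)).mono'
    (hf.mono_measure (Measure.restrict_mono h.sub le_rfl)) ?_
  exact (ae_restrict_iff' h.cl.measurableSet).2 hb

/-- **(I1)** the weak inequality for a dominated multiplier -/
theorem Dom.weak (h : Dom Ω S w m) (hv : Sol v) (hG : AEStronglyMeasurable G (volume.restrict Ω))
    {C : ℝ} (hb : ∀ᵐ x, x ∈ S → ‖∇ u x‖ ≤ C ∧ |G x| ≤ C)
    (hw : ∀ ζ : EE n → ℝ, LocallyLipschitzOn Ω ζ → (∀ x, 0 ≤ ζ x) → HasCompactSupport ζ →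
      tsupport ζ ⊆ Ω → ∫ x, ζ x * G x * psi v x ^ 2 ≤ -∫ x, gin u ζ x * psi v x ^ 2) :
    Integrable (fun x => psi v x ^ 2 * (m x * G x + ⟪∇ u x, ∇ m x⟫)) ∧
      ∫ x, psi v x ^ 2 * (m x * G x + ⟪∇ u x, ∇ m x⟫) ≤ 0 := by
  obtain ⟨η, C', hC, hη, hs, hb', hp, he⟩ := Ker.exists_cutoff n
  have hη1 : ∀ k, ContDiff ℝ 1 (η k) := fun k => contDiff_infty.1 (hη k) 1
  have cψ : Continuous fun x => psi v x ^ 2 := hv.psi_sm.continuous.pow 2
  have hψ : ∀ x, |psi v x ^ 2| ≤ 1 := fun x => by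
    rw [abs_of_nonneg (sq_nonneg _)]; exact psi_sq_le hv x
  have w0 : ∀ x, 0 ≤ w x := fun x => (h.nonneg x).trans (h.le x)
  have i1 : Integrable fun x => m x * G x * psi v x ^ 2 := by
    refine h.integrable_of (C := C) ((h.cont.aestronglyMeasurable.mul hG).mul
      cψ.aestronglyMeasurable) (fun x hx => by rw [h.zero x hx, zero_mul, zero_mul]) ?_
    filter_upwards [hb] with x h1 hx
    rw [abs_mul, abs_mul, abs_of_nonneg (h.nonneg x)]
    refine (mul_le_of_le_one_right (mul_nonneg (h.nonneg x) (abs_nonneg _)) (hψ x)).trans ?_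
    rw [mul_comm]
    exact mul_le_mul (h1 hx).2 (h.le x) (h.nonneg x) ((abs_nonneg _).trans (h1 hx).2)
  have i2 : Integrable fun x => gin u m x * psi v x ^ 2 := by
    refine h.integrable_of (C := C) ((measurable_gin u m).aestronglyMeasurable.mul
      cψ.aestronglyMeasurable) (fun x hx => by simp [gin_eq, h.grad_zero hx]) ?_
    filter_upwards [hb, h.grad] with x h1 h2 hx
    rw [abs_mul]
    exact (mul_le_of_le_one_right (abs_nonneg _) (hψ x)).trans ((abs_gin_le u m x).trans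
      (mul_le_mul (h1 hx).1 h2 (norm_nonneg _) ((norm_nonneg _).trans (h1 hx).1)))
  have i3 : ∀ i, Integrable fun x => m x * pdv i u x * psi v x ^ 2 := fun i => by
    refine h.integrable_of (C := C) ((h.cont.aestronglyMeasurable.mul
      (measurable_pdv u i).aestronglyMeasurable).mul cψ.aestronglyMeasurable)
      (fun x hx => by rw [h.zero x hx, zero_mul, zero_mul]) ?_
    filter_upwards [hb] with x h1 hx
    rw [abs_mul, abs_mul, abs_of_nonneg (h.nonneg x)]
    refine (mul_le_of_le_one_right (mul_nonneg (h.nonneg x) (abs_nonneg _)) (hψ x)).trans ?_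
    rw [mul_comm, ← grad_apply]
    exact mul_le_mul ((PiLp.norm_apply_le _ i).trans (h1 hx).1) (h.le x) (h.nonneg x)
      ((norm_nonneg _).trans (h1 hx).1)
  have e0 : (fun x => psi v x ^ 2 * (m x * G x + ⟪∇ u x, ∇ m x⟫)) =
      fun x => m x * G x * psi v x ^ 2 + gin u m x * psi v x ^ 2 :=
    funext fun x => by rw [gin_eq]; ring
  rw [e0]
  refine ⟨i1.add i2, ?_⟩
  have bη : ∀ k x, ‖η k x‖ ≤ 1 := fun k x => by
    rw [Real.norm_of_nonneg (hb' k x).1]; exact (hb' k x).2
  have j : ∀ {f : EE n → ℝ}, Integrable f → ∀ k, Integrable fun x => f x * η k x := fun hf k =>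
    hf.mul_bdd (c := 1) (hη k).continuous.aestronglyMeasurable (ae_of_all _ (bη k))
  have j3 : ∀ k i, Integrable fun x => m x * pdv i u x * psi v x ^ 2 * pdv i (η k) x :=
    fun k i => (i3 i).mul_bdd (c := C') (St.continuous_pdv (hη1 k) i).aestronglyMeasurable
      (ae_of_all _ fun x => hp k i x)
  have h1 : ∀ k, ∫ x, (m x * G x * psi v x ^ 2 + gin u m x * psi v x ^ 2) * η k x ≤
      -∑ i, ∫ x, m x * pdv i u x * psi v x ^ 2 * pdv i (η k) x := by
    intro k
    have h2 := hw (fun x => m x * η k x)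
      (ll_mul (h.lip.mono (subset_univ _)) (ll_of_contDiffAt fun x _ => (hη1 k).contDiffAt))
      (fun x => mul_nonneg (h.nonneg x) (hb' k x).1) (hs k).mul_left
      ((tsupport_mul_subset_left.trans h.tsupport_sub).trans h.sub)
    have h3 : ∫ x, gin u (fun x => m x * η k x) x * psi v x ^ 2 =
        (∫ x, gin u m x * psi v x ^ 2 * η k x) +
          ∑ i, ∫ x, m x * pdv i u x * psi v x ^ 2 * pdv i (η k) x := by
      rw [← integral_finsetSum _ fun i _ => j3 k i, ← integral_add (j i2 k)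
        (integrable_finsetSum _ fun i _ => j3 k i)]
      refine integral_congr_ae ?_
      filter_upwards [ae_diff isOpen_univ h.lip] with x hd
      rw [gin_mul_right (hd (mem_univ x)) ((hη1 k).differentiable (by simp) x), add_mul,
        show gin u (η k) x = ∑ i, pdv i u x * pdv i (η k) x from rfl, Finset.mul_sum,
        Finset.sum_mul]
      congr 1
      · ring
      · exact Finset.sum_congr rfl fun i _ => by ring
    simp only [add_mul]
    rw [integral_add (j i1 k) (j i2 k)]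
    have h4 : ∫ x, m x * G x * psi v x ^ 2 * η k x = ∫ x, m x * η k x * G x * psi v x ^ 2 :=
      integral_congr_ae (ae_of_all _ fun x => by ring)
    linarith
  have h2 : Tendsto (fun k => ∫ x, (m x * G x * psi v x ^ 2 + gin u m x * psi v x ^ 2) * η k x)
      atTop (𝓝 (∫ x, (m x * G x * psi v x ^ 2 + gin u m x * psi v x ^ 2))) := by
    refine tendsto_integral_of_dominated_convergence _ (fun k => (j (i1.add i2) k).1)
      (i1.add i2).norm (fun k => ae_of_all _ fun x => ?_) (ae_of_all _ fun x => ?_)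
    · rw [norm_mul]
      exact mul_le_of_le_one_right (norm_nonneg _) (bη k x)
    · refine tendsto_const_nhds.congr' ?_
      filter_upwards [he x] with k hk
      rw [hk.eq_of_nhds, mul_one]
  have h3 : ∀ i, Tendsto (fun k => ∫ x, m x * pdv i u x * psi v x ^ 2 * pdv i (η k) x) atTop
      (𝓝 0) := by
    intro i
    have := tendsto_integral_of_dominated_convergence (μ := volume)
      (F := fun k x => m x * pdv i u x * psi v x ^ 2 * pdv i (η k) x) (f := fun _ => 0)
      (fun x => ‖m x * pdv i u x * psi v x ^ 2‖ * C')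
      (fun k => (j3 k i).1) ((i3 i).norm.mul_const C') (fun k => ae_of_all _ fun x => ?_)
      (ae_of_all _ fun x => ?_)
    · simpa using this
    · rw [norm_mul]
      exact mul_le_mul_of_nonneg_left (hp k i x) (norm_nonneg _)
    · refine tendsto_const_nhds.congr' ?_
      filter_upwards [he x] with k hk
      rw [pdv_congr hk, pdv_const, mul_zero]
  have h4 : Tendsto (fun k => -∑ i, ∫ x, m x * pdv i u x * psi v x ^ 2 * pdv i (η k) x) atTop
      (𝓝 0) := by simpa using (tendsto_finsetSum Finset.univ fun i _ => h3 i).neg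
  exact le_of_tendsto_of_tendsto' h2 h4 h1

theorem abs_sf_le (hv : Sol v) (x p q : EE n) : |H.sf v x p q| ≤ 2 * (‖p‖ * ‖q‖) := by
  have h1 := hv.tt_nonneg x
  have h2 := tt_le_one v x
  have h3 := hv.norm_grad_dd_le x
  have h4 : ∀ p, |⟪∇ (dd v) x, p⟫| ≤ ‖p‖ := fun p =>
    (abs_real_inner_le_norm _ _).trans (mul_le_of_le_one_left (norm_nonneg _) h3)
  rw [H.sf, two_mul]
  refine (abs_sub _ _).trans (add_le_add ?_ ?_) <;> rw [abs_mul]
  · exact (mul_le_of_le_one_left (abs_nonneg _) (abs_le.2 ⟨by linarith, by linarith⟩)).trans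
      (abs_real_inner_le_norm _ _)
  · exact mul_le_mul (h4 p) (h4 q) (abs_nonneg _) (norm_nonneg _)

theorem measurable_grad (f : EE n → ℝ) : Measurable (∇ f) :=
  (InnerProductSpace.toDual ℝ (EE n)).symm.continuous.measurable.comp (measurable_fderiv ℝ f)

theorem measurable_sf (hv : Sol v) {p q : EE n → EE n} (hp : Measurable p) (hq : Measurable q) :
    Measurable fun x => H.sf v x (p x) (q x) :=
  ((measurable_const.sub ((hv.tt_cd 0).continuous.measurable.div_const 2)).mul (hp.inner hq)).sub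
    (((measurable_grad _).inner hp).mul ((measurable_grad _).inner hq))

/-- **(I2)** the Hardy identity for a dominated multiplier -/
theorem Dom.hardy (h : Dom Ω S w m) (hv : Sol v) (I : Finset (Fin n)) (c : EE n) {r0 : ℝ}
    (hr : 0 < r0) :
    Integrable (fun x => psi v x ^ 2 * (H.sf v x (∇ m x) (∇ (H.lr I c r0) x) + m x *
      (H.tr v I x / rh I c r0 x ^ 2 - 2 * H.sf v x (∇ (H.lr I c r0) x) (∇ (H.lr I c r0) x)))) ∧
    ∫ x, psi v x ^ 2 * (H.sf v x (∇ m x) (∇ (H.lr I c r0) x) + m x *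
      (H.tr v I x / rh I c r0 x ^ 2 - 2 * H.sf v x (∇ (H.lr I c r0) x) (∇ (H.lr I c r0) x))) ≤ 0 := by
  refine (fun hi => ⟨hi, H.hardy hv hr h.lip h.integrable hi (ae_of_all _ fun x _ => le_rfl)⟩) ?_
  have mt : Measurable (H.tr v I) :=
    ((measurable_const.sub ((hv.tt_cd 0).continuous.measurable.div_const 2)).mul_const _).sub
      (Finset.measurable_sum _ fun i _ => (measurable_pdv _ i).pow_const 2)
  refine (h.int.const_mul (2 * r0⁻¹ + ((n + 1) / r0 ^ 2 + 4 * (r0⁻¹ * r0⁻¹)))).mono'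
    (((hv.psi_sm.continuous.pow 2).measurable.mul ((measurable_sf hv (measurable_grad _)
      (measurable_grad _)).add (h.cont.measurable.mul ((mt.div
        ((H.cd_rh hr).continuous.measurable.pow_const 2)).sub ((measurable_sf hv
          (measurable_grad _) (measurable_grad _)).const_mul 2))))).aestronglyMeasurable) ?_
  filter_upwards [h.grad] with x hx
  have hl : ‖∇ (H.lr I c r0) x‖ ≤ r0⁻¹ := (H.norm_grad_lr hr x).trans (inv_anti₀ hr (le_rh I c x))
  have w0 : 0 ≤ w x := (h.nonneg x).trans (h.le x)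
  have t0 := hv.tt_nonneg x
  have t1 := tt_le_one v x
  have cI : (I.card : ℝ) ≤ n := by exact_mod_cast (Finset.card_le_univ I).trans (by simp)
  have c0 : (0 : ℝ) ≤ I.card := Nat.cast_nonneg _
  have b1 : |H.tr v I x| ≤ n + 1 := by
    have a1 := H.le_tr (I := I) v x
    have a2 := H.tr_le (I := I) v x
    exact abs_le.2 ⟨by nlinarith, by nlinarith⟩
  have b2 : |H.tr v I x / rh I c r0 x ^ 2| ≤ (n + 1) / r0 ^ 2 := by
    rw [abs_div, abs_of_nonneg (sq_nonneg (rh I c r0 x))]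
    have := le_rh (r0 := r0) I c x
    gcongr
  have b3 : |2 * H.sf v x (∇ (H.lr I c r0) x) (∇ (H.lr I c r0) x)| ≤ 4 * (r0⁻¹ * r0⁻¹) := by
    have a1 := abs_sf_le hv x (∇ (H.lr I c r0) x) (∇ (H.lr I c r0) x)
    have a2 := mul_le_mul hl hl (norm_nonneg _) (inv_pos.2 hr).le
    rw [abs_mul, abs_two]; linarith
  have b4 : |H.sf v x (∇ m x) (∇ (H.lr I c r0) x)| ≤ 2 * r0⁻¹ * w x := by
    have a1 := abs_sf_le hv x (∇ m x) (∇ (H.lr I c r0) x)
    have a2 := mul_le_mul hx hl (norm_nonneg _) w0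
    linarith
  rw [Real.norm_eq_abs, abs_mul, abs_of_nonneg (sq_nonneg _), add_mul]
  refine (mul_le_of_le_one_left (abs_nonneg _) (psi_sq_le hv x)).trans
    ((abs_add_le _ _).trans (add_le_add b4 ?_))
  rw [abs_mul, abs_of_nonneg (h.nonneg x), mul_comm]
  exact mul_le_mul ((abs_sub _ _).trans (add_le_add b2 b3)) (h.le x) (h.nonneg x) (by positivity)

/-! ### the multiplier `g(a) W² ch²` -/

/-- extension by zero -/
theorem ll_indicator (hΩ : IsOpen Ω) (hS : IsClosed S) (hs : S ⊆ Ω) (hm : LocallyLipschitzOn Ω m)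
    (h0 : ∀ x ∈ Ω, x ∉ S → m x = 0) : LocallyLipschitzOn univ (Ω.indicator m) := by
  intro x _
  rw [nhdsWithin_univ]
  by_cases hx : x ∈ Ω
  · obtain ⟨K, t, ht, h⟩ := hm hx
    rw [hΩ.nhdsWithin_eq hx] at ht
    exact ⟨K, t ∩ Ω, inter_mem ht (hΩ.mem_nhds hx), fun y hy z hz => by
      rw [indicator_of_mem hy.2, indicator_of_mem hz.2]; exact h hy.1 hz.1⟩
  · have e : ∀ y ∉ S, Ω.indicator m y = 0 := fun y hy => by
      by_cases h : y ∈ Ω
      · rw [indicator_of_mem h, h0 y h hy]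
      · rw [indicator_of_notMem h]
    exact ⟨0, Sᶜ, hS.isOpen_compl.mem_nhds fun h => hx (hs h), fun y hy z hz => by
      rw [e y hy, e z hz]; simp⟩

/-- the multiplier -/
def mm (Ω : Set (EE n)) (g : ℝ → ℝ) (a W ch : EE n → ℝ) : EE n → ℝ :=
  Ω.indicator fun x => g (a x) * W x ^ 2 * ch x ^ 2

/-- hypotheses on the multiplier: `a` is `U` (`J = Ioi 0`) or `log U` (`J = univ`) -/
structure Mul (Ω S : Set (EE n)) (J : Set ℝ) (g g' : ℝ → ℝ) (a W ch : EE n → ℝ) (C : ℝ) :
    Prop where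
  op : IsOpen Ω
  cl : IsClosed S
  sub : S ⊆ Ω
  la : LocallyLipschitzOn Ω a
  maps : MapsTo a Ω J
  lg : LocallyLipschitzOn J g
  dg : ∃ N : Set ℝ, N.Countable ∧ ∀ y ∈ J, y ∉ N → HasDerivAt g (g' y) y
  g0 : ∀ y ∈ J, 0 ≤ g y
  cW : ContDiff ℝ 1 W
  iW : Integrable fun x => W x ^ 2
  bW : ∀ x, ‖∇ W x‖ ≤ C * |W x|
  lc : LocallyLipschitzOn Ω ch
  c1 : ∀ x, |ch x| ≤ 1
  zero : ∀ x ∈ Ω, x ∉ S → g (a x) * ch x = 0
  bg : ∀ x ∈ S, g (a x) ≤ C
  bd : ∀ᵐ x, x ∈ S → |g' (a x)| * ‖∇ a x‖ ≤ C ∧ ‖∇ ch x‖ ≤ C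

variable {J : Set ℝ} {g g' : ℝ → ℝ} {C : ℝ}

theorem mm_of_mem (hx : x ∈ Ω) : mm Ω g a W ch x = g (a x) * W x ^ 2 * ch x ^ 2 :=
  indicator_of_mem hx _

theorem mm_of_notMem (hx : x ∉ Ω) : mm Ω g a W ch x = 0 := indicator_of_notMem hx _

theorem Mul.lW (h : Mul Ω S J g g' a W ch C) : LocallyLipschitzOn Ω W :=
  ll_of_contDiffAt fun _ _ => h.cW.contDiffAt

/-- the gradient of the multiplier -/
theorem Mul.grad (h : Mul Ω S J g g' a W ch C) : ∀ᵐ x, x ∈ Ω → ∇ (mm Ω g a W ch) x =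
    (g' (a x) * W x ^ 2 * ch x ^ 2) • ∇ a x + (2 * g (a x) * W x * ch x ^ 2) • ∇ W x +
      (2 * g (a x) * W x ^ 2 * ch x) • ∇ ch x := by
  obtain ⟨N, hN, hd⟩ := h.dg
  filter_upwards [ae_grad_comp h.op h.la h.maps h.lg hN hd,
    ae_diff h.op (ll_comp' h.la h.maps h.lg), ae_diff h.op h.lc] with x h1 h2 h3 hx
  have dW := h.cW.differentiable (by simp) x
  have e : mm Ω g a W ch =ᶠ[𝓝 x] fun y => g (a y) * W y ^ 2 * ch y ^ 2 := by
    filter_upwards [h.op.mem_nhds hx] with y hy using mm_of_mem hy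
  rw [grad_congr e, grad_mul ((h2 hx).fun_mul (dW.fun_pow 2)) ((h3 hx).fun_pow 2),
    grad_mul (h2 hx) (dW.fun_pow 2), h1 hx, grad_comp dW (hasDerivAt_pow 2 _),
    grad_comp (h3 hx) (hasDerivAt_pow 2 _)]
  push_cast
  module

/-- the multiplier is dominated by a multiple of `W²` -/
theorem Mul.dom (h : Mul Ω S J g g' a W ch C) :
    Dom Ω S (fun x => (|C| + 4 * C ^ 2) * W x ^ 2) (mm Ω g a W ch) := by
  have z : ∀ x ∈ Ω, x ∉ S → g (a x) * W x ^ 2 * ch x ^ 2 = 0 := fun x hx h1 => by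
    linear_combination W x ^ 2 * ch x * h.zero x hx h1
  have z' : ∀ x ∉ S, mm Ω g a W ch x = 0 := fun x hx => by
    by_cases h1 : x ∈ Ω
    · rw [mm_of_mem h1, z x h1 hx]
    · exact mm_of_notMem h1
  have c2 : ∀ x, ch x ^ 2 ≤ 1 := fun x => by
    rw [← sq_abs]; exact pow_le_one₀ (abs_nonneg _) (h.c1 x)
  have hC := le_abs_self C
  refine ⟨h.op, h.cl, h.sub, ll_indicator h.op h.cl h.sub (ll_mul (ll_mul
    (ll_comp' h.la h.maps h.lg) (ll_comp h.lW (F := fun y => y ^ 2) fun _ _ => by fun_prop))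
    (ll_comp h.lc (F := fun y => y ^ 2) fun _ _ => by fun_prop)) z, fun x => ?_, z',
    h.iW.const_mul _, fun x => ?_, ?_⟩
  · by_cases hx : x ∈ Ω
    · rw [mm_of_mem hx]
      have := h.g0 _ (h.maps hx)
      positivity
    · rw [mm_of_notMem hx]
  · by_cases hx : x ∈ S
    · have := h.g0 _ (h.maps (h.sub hx))
      rw [mm_of_mem (h.sub hx)]
      refine (mul_le_of_le_one_right (by positivity) (c2 x)).trans ?_
      gcongr
      nlinarith [h.bg x hx, sq_nonneg C]
    · rw [z' x hx]; positivity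
  · filter_upwards [h.grad, h.bd] with x h1 h2
    by_cases hx : x ∈ S
    · obtain ⟨b2, b3⟩ := h2 hx
      have b1 := h.bg x hx
      have b0 := h.g0 _ (h.maps (h.sub hx))
      have b4 := h.bW x
      have b5 := h.c1 x
      have C0 : 0 ≤ C := b0.trans b1
      rw [h1 (h.sub hx), show |C| + 4 * C ^ 2 = C + 2 * C * C + 2 * C * C by
        rw [abs_of_nonneg C0]; ring, add_mul, add_mul]
      refine norm_add₃_le.trans (le_trans (add_le_add (add_le_add ?_ ?_) ?_)
        (le_of_eq (by rw [← sq_abs (W x)]))) <;>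
        simp only [norm_smul, Real.norm_eq_abs, abs_mul, abs_pow, abs_two, abs_of_nonneg b0]
      · calc _ = |g' (a x)| * ‖∇ a x‖ * |W x| ^ 2 * |ch x| ^ 2 := by ring
          _ ≤ C * |W x| ^ 2 * 1 ^ 2 := by gcongr
          _ = _ := by ring
      · calc _ ≤ 2 * C * |W x| * 1 ^ 2 * (C * |W x|) := by gcongr
          _ = _ := by ring
      · calc _ ≤ 2 * C * |W x| ^ 2 * 1 * C := by gcongr
          _ = _ := by ring
    · have e : mm Ω g a W ch =ᶠ[𝓝 x] fun _ => 0 := by
        filter_upwards [h.cl.isOpen_compl.mem_nhds hx] with y hy using z' y hy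
      rw [grad_congr e]
      simp only [gradient_fun_const, norm_zero]
      positivity

/-! ### the cut -/

theorem lip_cut (hv : Sol v) {Th : EE n → ℝ} (hT : LocallyLipschitzOn Ω Th) :
    LocallyLipschitzOn Ω fun x => Real.smoothTransition (1 - (|dd v x| - Th x)) := by
  have h1 : LocallyLipschitzOn Ω fun x => |dd v x| :=
    ll_lip (ll_of_contDiffAt fun _ _ => (contDiff_infty.1 hv.dd_sm 1).contDiffAt)
      (F := fun y : ℝ => |y|) lipschitzWith_one_norm
  exact ll_comp (F := fun z : ℝ × ℝ => Real.smoothTransition (1 - (z.1 - z.2))) (ll_prod h1 hT)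
    fun _ _ => Real.smoothTransition.contDiff.contDiffAt.comp _ (by fun_prop)

theorem abs_cut (y : ℝ) : |Real.smoothTransition y| ≤ 1 := by
  rw [abs_of_nonneg (Real.smoothTransition.nonneg y)]; exact Real.smoothTransition.le_one y

theorem grad_cut (hv : Sol v) (hΩ : IsOpen Ω) {Th : EE n → ℝ} (hT : LocallyLipschitzOn Ω Th) :
    ∀ᵐ x, x ∈ Ω → ∇ (fun x => Real.smoothTransition (1 - (|dd v x| - Th x))) x =
      deriv Real.smoothTransition (1 - (|dd v x| - Th x)) •
        (∇ Th x - (SignType.sign (dd v x) : ℝ) • ∇ (dd v) x) := by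
  have l1 : LocallyLipschitzOn Ω (dd v) :=
    ll_of_contDiffAt fun _ _ => (contDiff_infty.1 hv.dd_sm 1).contDiffAt
  have l2 : LocallyLipschitzOn univ fun y : ℝ => |y| :=
    (lipschitzWith_one_norm (E := ℝ)).locallyLipschitz.locallyLipschitzOn
  filter_upwards [ae_grad_comp (g' := fun y => (SignType.sign y : ℝ)) hΩ l1 (mapsTo_univ _ _) l2
    (countable_singleton 0) fun y _ hy => hasDerivAt_abs hy,
    ae_diff hΩ (ll_comp' l1 (mapsTo_univ _ _) l2), ae_diff hΩ hT] with x h1 h2 h3 hx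
  rw [grad_comp (a := fun x => 1 - (|dd v x| - Th x)) (((h2 hx).fun_sub (h3 hx)).const_sub 1)
    ((Real.smoothTransition.contDiff (n := 1)).differentiable (by simp) _).hasDerivAt,
    grad_sub (differentiableAt_const _) ((h2 hx).fun_sub (h3 hx)), grad_sub (h2 hx) (h3 hx), h1 hx]
  simp

theorem exists_deriv_ST : ∃ A : ℝ, 0 ≤ A ∧ ∀ y, |deriv Real.smoothTransition y| ≤ A := by
  have hc : Continuous (deriv Real.smoothTransition) :=
    (Real.smoothTransition.contDiff (n := 1)).continuous_deriv le_rfl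
  obtain ⟨A, hA⟩ := (isCompact_Icc (a := (0 : ℝ)) (b := 1)).exists_bound_of_continuousOn
    hc.continuousOn
  have A0 : 0 ≤ A := (norm_nonneg _).trans (hA 0 ⟨le_rfl, zero_le_one⟩)
  refine ⟨A, A0, fun y => ?_⟩
  rcases lt_or_ge y 0 with h | h
  · rw [(show Real.smoothTransition =ᶠ[𝓝 y] fun _ => 0 from (eventually_lt_nhds h).mono
      fun z hz => Real.smoothTransition.zero_of_nonpos hz.le).deriv_eq]
    simpa using A0
  rcases le_or_gt y 1 with h1 | h1
  · exact hA y ⟨h, h1⟩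
  · rw [(show Real.smoothTransition =ᶠ[𝓝 y] fun _ => 1 from (eventually_gt_nhds h1).mono
      fun z hz => Real.smoothTransition.one_of_one_le hz.le).deriv_eq]
    simpa using A0

end

end Crest.Agent.N067.W
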