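import Crest.Agent.N067.V.Phi2

/-!
# Row 67, block W (helper47): the sum of the two sides.  Definitions.

`U = max (H φ₊ + H φ₋, (1 + k0) H φ₊, (1 + k0) H φ₋, Umin)`, `u = log U`.
-/

set_option autoImplicit false

open MeasureTheory Laplacian InnerProductSpace Topology Filter Set Metric
open scoped RealInnerProductSpace ContDiff Gradient NNReal

namespace Crest.Agent.N067.W

open Crest.Agent.R077 V

noncomputable section

variable {n : ℕ}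

/-- `g ≤ Δ_μ U (x)` in the barrier sense -/
def TLm (v U : EE n → ℝ) (x : EE n) (g : ℝ) : Prop :=
  ∀ ε > 0, ∃ f, Touch U f x ∧ g - ε ≤ Lm v f x

/-- the output of X1/X2 for one side: `ph = 1 / rt`; for the other side use `fun x => -v x`.
`pot` collects `(1 + e) |B|² 1[thick] + C t²`; the second order facts are only needed where the
side is active (`act`). -/
structure Side (v ph : EE n → ℝ) (Ω : Set (EE n)) (e : ℝ) (pot : EE n → ℝ) (act : EE n → Prop) :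
    Prop where
  sc : SC Ω ph
  pos : ∀ x ∈ Ω, 0 < ph x
  low2 : ∀ x ∈ Ω, ∀ a, 0 ≤ hb (dd v) x a a + 2 * ph x * ‖a‖ ^ 2
  low : ∀ x ∈ Ω, act x → DifferentiableAt ℝ ph x →
    ∀ a, 0 ≤ hb (dd v) x a a + (1 + e) * ph x * ‖a‖ ^ 2
  tl : ∀ x ∈ Ω, act x → DifferentiableAt ℝ ph x → ∀ ζ : EE n, TLm v ph x
    (-(ph x * pot x) + 4 * ⟪∇ ph x, ζ⟫ - 2 * hb (dd v) x ζ ζ - 2 * (1 + e) * ph x * ‖ζ‖ ^ 2
      - e * ‖∇ ph x‖ ^ 2 / ph x)

/-- the profile `H` (convex, `C¹`, `H (0+) ≤ 0`); `H2` is a lower second derivative -/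
structure HDes (H H1 H2 : ℝ → ℝ) : Prop where
  pos : ∀ y > 0, 0 < H y
  hd : ∀ y > 0, HasDerivAt H (H1 y) y
  pos1 : ∀ y > 0, 0 < H1 y
  mono : MonotoneOn H1 (Ioi 0)
  le : ∀ y > 0, H y ≤ y * H1 y
  pos2 : ∀ y > 0, 0 ≤ H2 y
  jet : ∀ y > 0, ∀ ε > 0, ∀ᶠ s in 𝓝 (0 : ℝ), H y + H1 y * s + (H2 y - ε) * s ^ 2 / 2 ≤ H (y + s)

/-- the function of the two values `A = H φ₊`, `B = H φ₋` -/
def U0 (k0 A B : ℝ) : ℝ := max (A + B) (max ((1 + k0) * A) ((1 + k0) * B))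

/-- the weight of the side with value `A` when the other side has the value `B` -/
def cw (k0 Umin A B : ℝ) : ℝ :=
  if U0 k0 A B ≤ Umin then 0 else if B ≤ k0 * A then 1 + k0 else if A ≤ k0 * B then 0 else 1

/-- `U` -/
def UU (H : ℝ → ℝ) (k0 Umin : ℝ) (p q : EE n → ℝ) (x : EE n) : ℝ :=
  max (U0 k0 (H (p x)) (H (q x))) Umin

/-- `u = log U` -/
def uu (H : ℝ → ℝ) (k0 Umin : ℝ) (p q : EE n → ℝ) (x : EE n) : ℝ := Real.log (UU H k0 Umin p q x)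

/-- the amplification `∂ u / ∂ log p` of the side `p` (for the other side swap `p`, `q`) -/
def am (H H1 : ℝ → ℝ) (k0 Umin : ℝ) (p q : EE n → ℝ) (x : EE n) : ℝ :=
  cw k0 Umin (H (p x)) (H (q x)) * H1 (p x) * p x / UU H k0 Umin p q x

/-- admissible Kato constants at the pair of values `(a, b)` -/
def Kato (H H1 H2 : ℝ → ℝ) (k0 a b κ : ℝ) : Prop :=
  0 ≤ κ ∧ (κ * H1 (max a b) * (a + b) ≤ 2 * U0 k0 (H a) (H b) ∨
    (κ * H1 a ^ 2 ≤ H a * H2 a ∧ κ * H1 b ^ 2 ≤ H b * H2 b))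

/-- the lower bound of `Δ_μ u` -/
def GG (H H1 kap : ℝ → ℝ) (k0 Umin e η : ℝ) (p q potp potq : EE n → ℝ) (x : EE n) : ℝ :=
  -(am H H1 k0 Umin p q x * potp x + am H H1 k0 Umin q p x * potq x)
    + ((1 - η) * kap (UU H k0 Umin p q x) / ((1 + e + k0) * (1 + k0)) - 1) * gsq (uu H k0 Umin p q) x
    + η * k0 / 4 * (am H H1 k0 Umin p q x * (gsq p x / p x ^ 2)
      + am H H1 k0 Umin q p x * (gsq q x / q x ^ 2))

/-- all the data of the block -/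
structure Data (v p q : EE n → ℝ) (Ω : Set (EE n)) (e : ℝ) (potp potq : EE n → ℝ)
    (H H1 H2 kap : ℝ → ℝ) (k0 Umin η : ℝ) : Prop where
  sol : Sol v
  op : IsOpen Ω
  sp : Side v p Ω e potp fun x => k0 * q x ≤ p x
  sq : Side (fun x => -v x) q Ω e potq fun x => k0 * p x ≤ q x
  lp : LB Ω potp
  lq : LB Ω potq
  des : HDes H H1 H2
  k0_pos : 0 < k0
  k0_lt : k0 < 1
  Umin_pos : 0 < Umin
  e_pos : 0 ≤ e
  η_le : η ≤ 1
  e_le : e ≤ η * k0 / 4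
  mkap : Measurable kap
  bkap : ∃ C, ∀ y, |kap y| ≤ C
  kato : ∀ a > 0, ∀ b > 0, Umin < U0 k0 (H a) (H b) → Kato H H1 H2 k0 a b (kap (U0 k0 (H a) (H b)))

/-- **output of the block** (`W.sumS`) -/
structure Out (v p q : EE n → ℝ) (Ω : Set (EE n)) (e : ℝ) (potp potq : EE n → ℝ)
    (H H1 kap : ℝ → ℝ) (k0 Umin η : ℝ) : Prop where
  sc : SC Ω (uu H k0 Umin p q)
  lam : LB Ω (am H H1 k0 Umin p q) ∧ LB Ω (am H H1 k0 Umin q p)
  lb : LB Ω (GG H H1 kap k0 Umin e η p q potp potq)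
  /-- chain rule -/
  grad : ∀ᵐ x, x ∈ Ω → ∇ (uu H k0 Umin p q) x =
    (am H H1 k0 Umin p q x / p x) • ∇ p x + (am H H1 k0 Umin q p x / q x) • ∇ q x
  /-- the weak inequality -/
  weak : ∀ ζ : EE n → ℝ, LocallyLipschitzOn Ω ζ → (∀ x, 0 ≤ ζ x) → HasCompactSupport ζ →
    tsupport ζ ⊆ Ω → ∫ x, ζ x * GG H H1 kap k0 Umin e η p q potp potq x * psi v x ^ 2
      ≤ -∫ x, gin (uu H k0 Umin p q) ζ x * psi v x ^ 2

end

end Crest.Agent.N067.W
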