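import Crest.Agent.N067.W.TLm

/-!
# Row 67, block W (helper47): Kato inequality for the sum of the two sides, `sumS : Data → Out`
-/

set_option autoImplicit false

open MeasureTheory Laplacian InnerProductSpace Topology Filter Set Metric
open scoped RealInnerProductSpace ContDiff Gradient NNReal

namespace Crest.Agent.N067.W

open Crest.Agent.R077 V

noncomputable section

variable {n : ℕ} {v p q potp potq : EE n → ℝ} {x : EE n} {Ω : Set (EE n)}
  {H H1 H2 kap : ℝ → ℝ} {e k0 Umin η : ℝ}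

/-- one active side: a fraction `η` of the Kato gain is spent on the side itself -/
theorem Side.bound {act : EE n → Prop} (h : Side v p Ω e potp act) (hx : x ∈ Ω) (hc : act x)
    (hd : DifferentiableAt ℝ p x) {b : ℝ}
    (hb0 : 0 < b) (hup : ∀ ζ, hb (dd v) x ζ ζ ≤ 2 * b * ‖ζ‖ ^ 2) (hk0 : 0 < k0) (hk1 : k0 < 1)
    (he : 0 ≤ e) (hη : η ≤ 1) (hek : e ≤ η * k0 / 4) (hact : k0 * b ≤ p x) (ζ : EE n) :
    TLm v p x (-(p x * potp x) + (1 - η) * (4 * ⟪∇ p x, ζ⟫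
      - 2 * (hb (dd v) x ζ ζ + (1 + e) * p x * ‖ζ‖ ^ 2)) + η * k0 / 4 * (‖∇ p x‖ ^ 2 / p x)) := by
  have ha := h.pos x hx
  have hη0 : 0 ≤ η := by
    by_contra h1
    nlinarith [mul_pos (neg_pos.2 (not_le.1 h1)) hk0]
  have he1 : e ≤ 1 := by nlinarith
  set s := (1 + e) * p x + 2 * b with hs
  have hs0 : 0 < s := by positivity
  refine ((h.tl x hx hc hd ζ).convex (h.tl x hx hc hd (s⁻¹ • ∇ p x)) hη0 hη).mono ?_
  have h1 := hup (s⁻¹ • ∇ p x)
  rw [real_inner_smul_right, real_inner_self_eq_norm_sq]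
  set G := ‖∇ p x‖ ^ 2 with hG
  have hG0 : 0 ≤ G := sq_nonneg _
  have h2 : ‖s⁻¹ • ∇ p x‖ ^ 2 = s⁻¹ ^ 2 * G := by
    rw [norm_smul, mul_pow, Real.norm_eq_abs, sq_abs]
  rw [h2] at h1 ⊢
  have h3 : 2 * b * (s⁻¹ ^ 2 * G) + (1 + e) * p x * (s⁻¹ ^ 2 * G) = s⁻¹ * G := by
    have : 2 * b + (1 + e) * p x = s := by rw [hs]; ring
    rw [← add_mul, this]; field_simp
  have h4 : k0 / 4 * (G / p x) ≤ s⁻¹ * G := by
    rw [mul_comm s⁻¹, ← div_eq_mul_inv, div_mul_div_comm, div_le_div_iff₀ (by positivity) hs0]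
    have : k0 * s ≤ 4 * p x := by
      have h5 : k0 * (1 + e) ≤ 2 := by nlinarith
      rw [hs]; nlinarith
    nlinarith
  have h5 : e * G / p x ≤ η * k0 / 4 * (G / p x) := by
    rw [mul_div_assoc]; exact mul_le_mul_of_nonneg_right hek (by positivity)
  nlinarith [mul_le_mul_of_nonneg_left h4 hη0, mul_le_mul_of_nonneg_left h1 hη0]

/-- the weighted side after composition with `H` -/
theorem Side.wbound {act : EE n → Prop} (h : Side v p Ω e potp act) (hH : HDes H H1 H2)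
    (hx : x ∈ Ω) (hd : DifferentiableAt ℝ p x) {b w : ℝ}
    (hb0 : 0 < b) (hup : ∀ ζ, hb (dd v) x ζ ζ ≤ 2 * b * ‖ζ‖ ^ 2) (hk0 : 0 < k0) (hk1 : k0 < 1)
    (he : 0 ≤ e) (hη : η ≤ 1) (hek : e ≤ η * k0 / 4) (hw : 0 ≤ w)
    (hact : w ≠ 0 → k0 * b ≤ p x ∧ act x)
    (ζ : EE n) : TLm v (fun y => w * H (p y)) x (w * (H1 (p x) * (-(p x * potp x)
      + (1 - η) * (4 * ⟪∇ p x, ζ⟫ - 2 * (hb (dd v) x ζ ζ + (1 + e) * p x * ‖ζ‖ ^ 2))
      + η * k0 / 4 * (‖∇ p x‖ ^ 2 / p x)) + H2 (p x) * ‖∇ p x‖ ^ 2)) := by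
  by_cases h0 : w = 0
  · simpa [h0] using TLm.const (v := v) (x := x) 0
  · have := (hH.tlm (h.bound hx (hact h0).2 hd hb0 hup hk0 hk1 he hη hek (hact h0).1 ζ) hd
      (h.pos x hx)).smul hw
    rwa [gsq_eq] at this

theorem U0_comm (k0 A B : ℝ) : U0 k0 A B = U0 k0 B A := by
  rw [U0, U0, add_comm A, max_comm ((1 + k0) * A)]

theorem UU_comm (H : ℝ → ℝ) (k0 Umin : ℝ) (p q : EE n → ℝ) : UU H k0 Umin p q = UU H k0 Umin q p :=
  funext fun x => by rw [UU, UU, U0_comm]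

theorem uu_comm (H : ℝ → ℝ) (k0 Umin : ℝ) (p q : EE n → ℝ) : uu H k0 Umin p q = uu H k0 Umin q p :=
  funext fun x => by rw [uu, uu, UU_comm]

theorem UU_pos (hU : 0 < Umin) (x : EE n) : 0 < UU H k0 Umin p q x :=
  hU.trans_le (le_max_right _ _)

theorem cw_nonneg (hk0 : 0 < k0) (Umin A B : ℝ) : 0 ≤ cw k0 Umin A B := by
  unfold cw; split_ifs <;> linarith

theorem cw_le (hk0 : 0 < k0) (Umin A B : ℝ) : cw k0 Umin A B ≤ 1 + k0 := by
  unfold cw; split_ifs <;> linarith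

theorem cw_of_le {A B : ℝ} (h : U0 k0 A B ≤ Umin) : cw k0 Umin A B = 0 := if_pos h

/-- the three active branches -/
theorem cw_cases (hk0 : 0 < k0) (hk1 : k0 < 1) {A B : ℝ} (hA : 0 < A) (hB : 0 < B)
    (h : Umin < U0 k0 A B) :
    (cw k0 Umin A B = 1 + k0 ∧ cw k0 Umin B A = 0 ∧ B ≤ k0 * A) ∨
    (cw k0 Umin A B = 0 ∧ cw k0 Umin B A = 1 + k0 ∧ A ≤ k0 * B) ∨
    (cw k0 Umin A B = 1 ∧ cw k0 Umin B A = 1 ∧ k0 * A < B ∧ k0 * B < A) := by
  have h' : ¬U0 k0 B A ≤ Umin := by rw [U0_comm]; exact not_le.2 h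
  unfold cw
  rw [if_neg (not_le.2 h), if_neg h']
  by_cases h1 : B ≤ k0 * A
  · have h2 : ¬A ≤ k0 * B := by intro h2; nlinarith
    simp [h1, h2]
  · by_cases h2 : A ≤ k0 * B
    · simp [h1, h2]
    · simp [h1, h2, not_le.1 h1, not_le.1 h2]

theorem cw_eq (hk0 : 0 < k0) (hk1 : k0 < 1) {A B : ℝ} (hA : 0 < A) (hB : 0 < B)
    (h : Umin < U0 k0 A B) : cw k0 Umin A B * A + cw k0 Umin B A * B = U0 k0 A B := by
  unfold U0
  rcases cw_cases hk0 hk1 hA hB h with ⟨h1, h2, h3⟩ | ⟨h1, h2, h3⟩ | ⟨h1, h2, h3, h4⟩ <;>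
    rw [h1, h2]
  · rw [max_eq_left (a := (1 + k0) * A) (by nlinarith), max_eq_right (by nlinarith)]; ring
  · rw [max_eq_right (a := (1 + k0) * A) (by nlinarith), max_eq_right (by nlinarith)]; ring
  · rw [max_eq_left (max_le (by nlinarith) (by nlinarith))]; ring

theorem cw_le_U0 (hk0 : 0 < k0) (hk1 : k0 < 1) {A B : ℝ} (hA : 0 < A) (hB : 0 < B)
    (h : Umin < U0 k0 A B) (A' B' : ℝ) :
    cw k0 Umin A B * A' + cw k0 Umin B A * B' ≤ U0 k0 A' B' := by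
  unfold U0
  rcases cw_cases hk0 hk1 hA hB h with ⟨h1, h2, -⟩ | ⟨h1, h2, -⟩ | ⟨h1, h2, -⟩ <;> rw [h1, h2]
  · simp
  · simp
  · simp

/-- an active side has a comparable size -/
theorem cw_act (hH : HDes H H1 H2) (hk1 : k0 < 1) {a b : ℝ} (ha : 0 < a) (hb : 0 < b)
    (h : cw k0 Umin (H a) (H b) ≠ 0) : k0 * b ≤ a := by
  by_cases hab : b ≤ a
  · nlinarith
  have h1 := hH.ratio ha (not_le.1 hab).le
  have h2 := hH.strictMono ha hb (not_le.1 hab)
  have hA := hH.pos a ha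
  unfold cw at h
  split_ifs at h with h3 h4 h5
  · exact absurd rfl h
  · nlinarith
  · exact absurd rfl h
  · by_contra h6
    nlinarith [mul_pos (sub_pos.2 (not_le.1 h6)) (hA.trans h2),
      mul_lt_mul_of_pos_left (not_le.1 h5) hb]

/-- the algebra of the Kato inequality -/
theorem kato_alg (hH : HDes H H1 H2) {a b w w' κ : ℝ} (ha : 0 < a) (hb : 0 < b) (hk0 : 0 < k0)
    (he : 0 ≤ e) (hη0 : 0 ≤ η) (hη : η ≤ 1) (hw : 0 ≤ w) (hw' : 0 ≤ w') (hw1 : w ≤ 1 + k0)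
    (hw1' : w' ≤ 1 + k0) (hU : w * H a + w' * H b = U0 k0 (H a) (H b))
    (hκ : Kato H H1 H2 k0 a b κ) {P Q : EE n → ℝ} (p0 : P 0 = 0) (q0 : Q 0 = 0)
    (hPQ : ∀ ζ c, w * H1 a ≤ c → w' * H1 b ≤ c →
      w * H1 a * P ζ + w' * H1 b * Q ζ ≤ c * ((1 + e) * (a + b) * ‖ζ‖ ^ 2)) (g g' : EE n) :
    ∃ ζ, (1 - η) * κ / ((1 + e) * (1 + k0)) * ‖(w * H1 a) • g + (w' * H1 b) • g'‖ ^ 2
        / U0 k0 (H a) (H b) ≤
      w * (H1 a * ((1 - η) * (4 * ⟪g, ζ⟫ - 2 * P ζ)) + H2 a * ‖g‖ ^ 2)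
        + w' * (H1 b * ((1 - η) * (4 * ⟪g', ζ⟫ - 2 * Q ζ)) + H2 b * ‖g'‖ ^ 2) := by
  set Y := (w * H1 a) • g + (w' * H1 b) • g' with hY
  set U := U0 k0 (H a) (H b) with hUd
  have hA := hH.pos a ha
  have hB := hH.pos b hb
  have hU0 : 0 < U := (add_pos hA hB).trans_le (le_max_left _ _)
  have a1 := hH.pos1 a ha
  have b1 := hH.pos1 b hb
  have a2 := mul_nonneg hw (mul_nonneg (hH.pos2 a ha) (sq_nonneg ‖g‖))
  have b2 := mul_nonneg hw' (mul_nonneg (hH.pos2 b hb) (sq_nonneg ‖g'‖))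
  have hη1 := sub_nonneg.2 hη
  obtain ⟨hκ0, h | ⟨h1, h2⟩⟩ := hκ
  · set m := H1 (max a b) with hm
    have hm0 : 0 < m := hH.pos1 _ (lt_max_of_lt_left ha)
    have m1 : w * H1 a ≤ (1 + k0) * m := mul_le_mul hw1
      (hH.mono ha (lt_max_of_lt_left ha) (le_max_left _ _)) a1.le (by linarith)
    have m2 : w' * H1 b ≤ (1 + k0) * m := mul_le_mul hw1'
      (hH.mono hb (lt_max_of_lt_left ha) (le_max_right _ _)) b1.le (by linarith)
    set c := (1 + k0) * m * ((1 + e) * (a + b)) with hc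
    have hc0 : 0 < c := by positivity
    refine ⟨c⁻¹ • Y, ?_⟩
    set ζ := c⁻¹ • Y with hζ
    have e1 : w * H1 a * ⟪g, ζ⟫ + w' * H1 b * ⟪g', ζ⟫ = ‖Y‖ ^ 2 / c := by
      rw [← real_inner_smul_left, ← real_inner_smul_left, ← inner_add_left, ← hY, hζ,
        real_inner_smul_right, real_inner_self_eq_norm_sq]
      ring
    have e2 : w * H1 a * P ζ + w' * H1 b * Q ζ ≤ ‖Y‖ ^ 2 / c := by
      refine (hPQ ζ _ m1 m2).trans (le_of_eq ?_)
      rw [hζ, norm_smul, mul_pow, Real.norm_eq_abs, sq_abs, ← mul_assoc, ← hc]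
      field_simp
    have e4 : κ / ((1 + e) * (1 + k0)) * ‖Y‖ ^ 2 / U ≤ 2 * (‖Y‖ ^ 2 / c) := by
      rw [div_mul_eq_mul_div, div_div, ← mul_div_assoc, div_le_div_iff₀ (by positivity) hc0, hc]
      have := mul_le_mul_of_nonneg_left h
        (by positivity : 0 ≤ ‖Y‖ ^ 2 * ((1 + e) * (1 + k0)))
      nlinarith
    have e5 := mul_le_mul_of_nonneg_left e4 hη1
    have e6 : (1 - η) * κ / ((1 + e) * (1 + k0)) * ‖Y‖ ^ 2 / U
        = (1 - η) * (κ / ((1 + e) * (1 + k0)) * ‖Y‖ ^ 2 / U) := by ring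
    rw [e6]
    nlinarith [mul_le_mul_of_nonneg_left e2 hη1]
  · refine ⟨0, ?_⟩
    simp only [inner_zero_right, p0, q0, mul_zero, sub_zero, zero_add]
    have y1 : ‖Y‖ ≤ w * H1 a * ‖g‖ + w' * H1 b * ‖g'‖ := by
      refine (norm_add_le _ _).trans (le_of_eq ?_)
      rw [norm_smul, norm_smul, Real.norm_of_nonneg (by positivity),
        Real.norm_of_nonneg (by positivity)]
    have y2 : ‖Y‖ ^ 2 ≤ U * (w * (H1 a ^ 2 * ‖g‖ ^ 2 / H a) + w' * (H1 b ^ 2 * ‖g'‖ ^ 2 / H b)) := by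
      refine (pow_le_pow_left₀ (norm_nonneg _) y1 2).trans ?_
      rw [← hU, ← sub_nonneg]
      have : (w * H a + w' * H b) * (w * (H1 a ^ 2 * ‖g‖ ^ 2 / H a)
          + w' * (H1 b ^ 2 * ‖g'‖ ^ 2 / H b)) - (w * H1 a * ‖g‖ + w' * H1 b * ‖g'‖) ^ 2
          = w * w' * (H b * (H1 a * ‖g‖) - H a * (H1 b * ‖g'‖)) ^ 2 / (H a * H b) := by
        field_simp; ring
      rw [this]; positivity
    have y3 : κ * (H1 a ^ 2 * ‖g‖ ^ 2 / H a) ≤ H2 a * ‖g‖ ^ 2 := by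
      rw [← mul_div_assoc, div_le_iff₀ hA]
      nlinarith [mul_le_mul_of_nonneg_right h1 (sq_nonneg ‖g‖)]
    have y4 : κ * (H1 b ^ 2 * ‖g'‖ ^ 2 / H b) ≤ H2 b * ‖g'‖ ^ 2 := by
      rw [← mul_div_assoc, div_le_iff₀ hB]
      nlinarith [mul_le_mul_of_nonneg_right h2 (sq_nonneg ‖g'‖)]
    have y5 : (1 - η) * κ / ((1 + e) * (1 + k0)) ≤ κ := by
      rw [div_le_iff₀ (by positivity)]
      nlinarith [mul_nonneg hκ0 hη0, mul_nonneg hκ0 he, mul_nonneg hκ0 hk0.le,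
        mul_nonneg hκ0 (mul_nonneg he hk0.le)]
    rw [div_le_iff₀ hU0]
    have y6 := mul_le_mul_of_nonneg_right y5 (sq_nonneg ‖Y‖)
    have y7 := mul_le_mul_of_nonneg_left y2 hκ0
    have y8 := mul_le_mul_of_nonneg_left
      (add_le_add (mul_le_mul_of_nonneg_left y3 hw) (mul_le_mul_of_nonneg_left y4 hw')) hU0.le
    nlinarith

theorem grad_of_fderiv {f : EE n → ℝ} {a : EE n} (h : ∀ z, fderiv ℝ f x z = ⟪a, z⟫) : ∇ f x = a :=
  ext_inner_right ℝ fun z => by rw [inner_grad, h]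

variable (D : Data v p q Ω e potp potq H H1 H2 kap k0 Umin η)
include D

theorem Data.η_nonneg : 0 ≤ η := by
  by_contra h1
  nlinarith [mul_pos (neg_pos.2 (not_le.1 h1)) D.k0_pos, D.e_pos, D.e_le]

theorem Data.scU : SC Ω (UU H k0 Umin p q) := by
  have hp := D.des.sc D.op D.sp.sc D.sp.pos
  have hq := D.des.sc D.op D.sq.sc D.sq.pos
  have hk : 0 ≤ 1 + k0 := by linarith [D.k0_pos]
  exact ((hp.add hq).max ((sc_smul D.op hp hk).max (sc_smul D.op hq hk))).max (sc_const Umin)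

theorem Data.scu : SC Ω (uu H k0 Umin p q) :=
  D.scU.comp1 D.op (F := Real.log) isOpen_Ioi
    (fun _ hs => (Real.contDiffAt_log.2 (ne_of_gt hs)).contDiffWithinAt)
    Real.strictMonoOn_log.monotoneOn fun x _ => UU_pos D.Umin_pos x

/-- the pointwise statement -/
theorem Data.point (hx : x ∈ Ω) (dp : DifferentiableAt ℝ p x) (dq : DifferentiableAt ℝ q x)
    (dU : DifferentiableAt ℝ (UU H k0 Umin p q) x) :
    ∇ (uu H k0 Umin p q) x =
      (am H H1 k0 Umin p q x / p x) • ∇ p x + (am H H1 k0 Umin q p x / q x) • ∇ q x ∧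
    TLm v (uu H k0 Umin p q) x (GG H H1 kap k0 Umin e η p q potp potq x) := by
  have ha := D.sp.pos x hx
  have hb' := D.sq.pos x hx
  have hU := UU_pos (H := H) (k0 := k0) (p := p) (q := q) D.Umin_pos x
  set U := UU H k0 Umin p q with hUd
  set w := cw k0 Umin (H (p x)) (H (q x)) with hw
  set w' := cw k0 Umin (H (q x)) (H (p x)) with hw'
  have e1 : am H H1 k0 Umin p q x = w * H1 (p x) * p x / U x := rfl
  have e2 : am H H1 k0 Umin q p x = w' * H1 (q x) * q x / U x := by rw [hUd, UU_comm]; rfl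
  have gu : ∇ (uu H k0 Umin p q) x = (U x)⁻¹ • ∇ U x := grad_of_fderiv fun z => by
    rw [show fderiv ℝ (uu H k0 Umin p q) x = _ from (dU.hasFDerivAt.log hU.ne').fderiv,
      real_inner_smul_left, inner_grad]
    rfl
  have qu : gsq (uu H k0 Umin p q) x = gsq U x / U x ^ 2 := by
    rw [gsq_eq, gsq_eq, gu, norm_smul, mul_pow, Real.norm_eq_abs, sq_abs]
    ring
  by_cases h0 : U0 k0 (H (p x)) (H (q x)) ≤ Umin
  · have w0 : w = 0 := cw_of_le h0
    have w0' : w' = 0 := cw_of_le (by rwa [U0_comm])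
    have hUx : Umin = U x := (max_eq_right h0).symm
    have hl : ∀ᶠ y in 𝓝 x, Umin ≤ U y := Eventually.of_forall fun y => le_max_right _ _
    have g0 : ∇ U x = 0 := grad_of_fderiv fun z => by
      rw [← fderiv_touch (f := fun _ => Umin) dU (differentiableAt_const _) hUx hl]; simp
    refine ⟨by simp [gu, g0, e1, e2, w0, w0'], ?_⟩
    refine (((TLm.const (v := v) (x := x) Umin).of_le hUx hl).log dU hU).mono (le_of_eq ?_)
    simp [GG, e1, e2, w0, w0', qu, gsq_eq, g0]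
  push Not at h0
  have hA := D.des.pos _ ha
  have hB := D.des.pos _ hb'
  have hUx : U x = U0 k0 (H (p x)) (H (q x)) := max_eq_left h0.le
  have hS := cw_eq D.k0_pos D.k0_lt hA hB h0
  have hl : ∀ᶠ y in 𝓝 x, w * H (p y) + w' * H (q y) ≤ U y := Eventually.of_forall fun y =>
    (cw_le_U0 D.k0_pos D.k0_lt hA hB h0 _ _).trans (le_max_left _ _)
  have dS := (((D.des.hd _ ha).comp_hasFDerivAt x dp.hasFDerivAt).const_mul w).add
    (((D.des.hd _ hb').comp_hasFDerivAt x dq.hasFDerivAt).const_mul w')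
  have gU : ∇ U x = (w * H1 (p x)) • ∇ p x + (w' * H1 (q x)) • ∇ q x := grad_of_fderiv fun z => by
    rw [← fderiv_touch dU dS.differentiableAt (hS.trans hUx.symm) hl, dS.fderiv, inner_add_left,
      real_inner_smul_left, real_inner_smul_left, inner_grad, inner_grad]
    simp only [add_apply, smul_apply, smul_eq_mul]
    ring
  refine ⟨?_, ?_⟩
  · rw [gu, gU, smul_add, smul_smul, smul_smul, e1, e2]
    congr 2 <;> field_simp
  have lp := D.sp.low2 x hx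
  have lq := D.sq.low2 x hx
  have wp := cw_nonneg D.k0_pos Umin (H (p x)) (H (q x))
  have wq := cw_nonneg D.k0_pos Umin (H (q x)) (H (p x))
  have ap := cw_act (Umin := Umin) D.des D.k0_lt ha hb'
  have aq := cw_act (Umin := Umin) D.des D.k0_lt hb' ha
  have a1 := mul_nonneg wp (D.des.pos1 _ ha).le
  have b1 := mul_nonneg wq (D.des.pos1 _ hb').le
  have k0p := D.k0_pos
  have e0 := D.e_pos
  obtain ⟨ζ, hζ⟩ := kato_alg (e := e + k0) D.des ha hb' D.k0_pos (by positivity) D.η_nonneg D.η_le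
    wp wq (cw_le D.k0_pos _ _ _) (cw_le D.k0_pos _ _ _) hS (D.kato _ ha _ hb' h0)
    (P := fun ζ => hb (dd v) x ζ ζ + (1 + e) * p x * ‖ζ‖ ^ 2)
    (Q := fun ζ => hb (dd fun x => -v x) x ζ ζ + (1 + e) * q x * ‖ζ‖ ^ 2) (by simp) (by simp)
    (fun ζ c c1 c2 => by
      have z0 := sq_nonneg ‖ζ‖
      have l1 := lp ζ
      have l2 := lq ζ
      rw [hb_neg_v D.sol] at l2 ⊢
      have pz := mul_nonneg ha.le z0
      have qz := mul_nonneg hb'.le z0
      have hP : ∀ (_ : k0 * q x ≤ p x), 0 ≤ hb (dd v) x ζ ζ + (1 + e) * p x * ‖ζ‖ ^ 2 :=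
        fun h => D.sp.low x hx h dp ζ
      have hQ : ∀ (_ : k0 * p x ≤ q x), 0 ≤ -hb (dd v) x ζ ζ + (1 + e) * q x * ‖ζ‖ ^ 2 :=
        fun h => by have := D.sq.low x hx h dq ζ; rwa [hb_neg_v D.sol] at this
      have uP : hb (dd v) x ζ ζ + (1 + e) * p x * ‖ζ‖ ^ 2
          ≤ (1 + (e + k0)) * (p x + q x) * ‖ζ‖ ^ 2 := by
        by_cases h : k0 * p x ≤ q x
        · nlinarith [hQ h, mul_nonneg k0p.le (add_nonneg pz qz)]
        · nlinarith [mul_le_mul_of_nonneg_right (not_le.1 h).le z0, mul_nonneg e0 qz,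
            mul_nonneg k0p.le qz]
      have uQ : -hb (dd v) x ζ ζ + (1 + e) * q x * ‖ζ‖ ^ 2
          ≤ (1 + (e + k0)) * (p x + q x) * ‖ζ‖ ^ 2 := by
        by_cases h : k0 * q x ≤ p x
        · nlinarith [hP h, mul_nonneg k0p.le (add_nonneg pz qz)]
        · nlinarith [mul_le_mul_of_nonneg_right (not_le.1 h).le z0, mul_nonneg e0 pz,
            mul_nonneg k0p.le pz]
      have s0 : 0 ≤ (1 + (e + k0)) * (p x + q x) * ‖ζ‖ ^ 2 := by positivity
      by_cases w0 : cw k0 Umin (H (p x)) (H (q x)) = 0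
      · rw [w0, zero_mul, zero_mul, zero_add]
        exact (mul_le_mul_of_nonneg_left uQ b1).trans (mul_le_mul_of_nonneg_right c2 s0)
      by_cases w0' : cw k0 Umin (H (q x)) (H (p x)) = 0
      · rw [w0', zero_mul, zero_mul, add_zero]
        exact (mul_le_mul_of_nonneg_left uP a1).trans (mul_le_mul_of_nonneg_right c1 s0)
      have c0 := a1.trans c1
      nlinarith [mul_le_mul_of_nonneg_right c1 (hP (ap w0)),
        mul_le_mul_of_nonneg_right c2 (hQ (aq w0')),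
        mul_nonneg c0 (mul_nonneg k0p.le (add_nonneg pz qz))]) (∇ p x) (∇ q x)
  have t1 := D.sp.wbound D.des hx dp hb' (fun ζ => by
      have := lq ζ; rw [hb_neg_v D.sol] at this; linarith) D.k0_pos D.k0_lt D.e_pos D.η_le D.e_le
    wp (fun h => ⟨ap h, ap h⟩) ζ
  have t2 := (D.sq.wbound D.des hx dq ha (fun ζ => by
      have := lp ζ; rw [hb_neg_v D.sol]; linarith) D.k0_pos D.k0_lt D.e_pos D.η_le D.e_le
    wq (fun h => ⟨aq h, aq h⟩) ζ).neg_v D.sol
  refine (((t1.add t2).of_le (hS.trans hUx.symm) hl).log dU hU).mono ?_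
  rw [← gU, ← hUx, ← gsq_eq, ← hw, ← hw', ← add_assoc 1 e k0] at hζ
  rw [GG, e1, e2, qu, ← hUd, gsq_eq p, gsq_eq q, ← hw, ← hw', ← sub_nonneg]
  set R := w * (H1 (p x) * ((1 - η) * (4 * ⟪∇ p x, ζ⟫
      - 2 * (hb (dd v) x ζ ζ + (1 + e) * p x * ‖ζ‖ ^ 2))) + H2 (p x) * ‖∇ p x‖ ^ 2)
    + w' * (H1 (q x) * ((1 - η) * (4 * ⟪∇ q x, ζ⟫
      - 2 * (hb (dd fun x => -v x) x ζ ζ + (1 + e) * q x * ‖ζ‖ ^ 2))) + H2 (q x) * ‖∇ q x‖ ^ 2)
    with hR
  refine le_of_le_of_eq (div_nonneg (sub_nonneg.2 hζ) hU.le) ?_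
  rw [hR]
  field_simp
  ring

theorem Data.lb_am : LB Ω (am H H1 k0 Umin p q) := by
  have cp := (D.sp.sc.locLip D.op).continuousOn
  have cH : ∀ {p : EE n → ℝ}, ContinuousOn p Ω → (∀ x ∈ Ω, 0 < p x) →
      ContinuousOn (fun x => H (p x)) Ω := fun cp h0 x hx =>
    (D.des.hd _ (h0 x hx)).continuousAt.comp_continuousWithinAt (cp x hx)
  have mp := (cH cp D.sp.pos).aemeasurable (μ := volume) D.op.measurableSet
  have mq := (cH (D.sq.sc.locLip D.op).continuousOn D.sq.pos).aemeasurable (μ := volume)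
    D.op.measurableSet
  have mc : Measurable fun z : ℝ × ℝ => cw k0 Umin z.1 z.2 := by
    unfold cw U0
    exact Measurable.ite (measurableSet_le (by fun_prop) measurable_const) measurable_const
      (Measurable.ite (measurableSet_le (by fun_prop) (by fun_prop)) measurable_const
        (Measurable.ite (measurableSet_le (by fun_prop) (by fun_prop)) measurable_const
          measurable_const))
  have l1 : LB Ω fun x => cw k0 Umin (H (p x)) (H (q x)) :=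
    ⟨(mc.comp_aemeasurable (mp.prodMk mq)).aestronglyMeasurable, fun _ _ _ => ⟨1 + k0, fun x _ => by
      rw [abs_of_nonneg (cw_nonneg D.k0_pos _ _ _)]; exact cw_le D.k0_pos _ _ _⟩⟩
  have l2 : LB Ω fun x => H1 (p x) := by
    refine ⟨(((measurable_deriv H).comp_aemeasurable (cp.aemeasurable (μ := volume)
      D.op.measurableSet)).aestronglyMeasurable).congr ?_, fun K hK hc => ?_⟩
    · filter_upwards [ae_restrict_mem D.op.measurableSet] with x hx
      exact (D.des.hd _ (D.sp.pos x hx)).deriv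
    · obtain ⟨M, hM⟩ := hc.exists_bound_of_continuousOn (cp.mono hK)
      refine ⟨H1 (|M| + 1), fun x hx => ?_⟩
      have h4 := D.sp.pos x (hK hx)
      rw [abs_of_pos (D.des.pos1 _ h4)]
      exact D.des.mono h4 (show (0 : ℝ) < |M| + 1 by positivity) (by
        linarith [le_abs_self (p x), le_abs_self M, hM x hx, Real.norm_eq_abs (p x)])
  have l3 := LB.of_cont D.op ((D.scU.locLip D.op).continuousOn.inv₀ fun x _ =>
    (UU_pos D.Umin_pos x).ne')
  exact ((l1.mul l2).mul (LB.of_cont D.op cp)).mul l3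

/-- the two sides play symmetric roles -/
theorem Data.symm : Data (fun x => -v x) q p Ω e potq potp H H1 H2 kap k0 Umin η :=
  { D with
    sol := D.sol.neg'
    sp := D.sq
    sq := by simpa using D.sp
    lp := D.lq
    lq := D.lp
    kato := fun a ha b hb h => D.kato a ha b hb h }

theorem Data.lb_GG : LB Ω (GG H H1 kap k0 Umin e η p q potp potq) := by
  have l0 : ∀ c : ℝ, LB Ω fun _ => c := fun c => LB.of_cont D.op continuousOn_const
  have cU := (D.scU.locLip D.op).continuousOn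
  have lk : LB Ω fun x => kap (UU H k0 Umin p q x) := by
    obtain ⟨C, hC⟩ := D.bkap
    exact ⟨(D.mkap.comp_aemeasurable (cU.aemeasurable (μ := volume)
      D.op.measurableSet)).aestronglyMeasurable, fun _ _ _ => ⟨C, fun x _ => hC _⟩⟩
  have lg : ∀ {p : EE n → ℝ}, SC Ω p → (∀ x ∈ Ω, 0 < p x) → LB Ω fun x => gsq p x / p x ^ 2 :=
    fun h h0 => (LB.gsq D.op (h.locLip D.op)).mul (LB.of_cont D.op
      (((h.locLip D.op).continuousOn.pow 2).inv₀ fun x hx => (pow_pos (h0 x hx) 2).ne'))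
  have h1 := ((l0 (-1)).mul ((D.lb_am.mul D.lp).add (D.symm.lb_am.mul D.lq))).add
    ((((((l0 (1 - η)).mul lk).mul (l0 ((1 + e + k0) * (1 + k0))⁻¹)).sub (l0 1)).mul
      (LB.gsq D.op (D.scu.locLip D.op))))
  have h2 := h1.add ((l0 (η * k0 / 4)).mul ((D.lb_am.mul (lg D.sp.sc D.sp.pos)).add
    (D.symm.lb_am.mul (lg D.sq.sc D.sq.pos))))
  convert h2 using 2 with x
  rw [GG, neg_one_mul, div_eq_mul_inv (_ * kap _)]

theorem Data.ae_point : ∀ᵐ x, x ∈ Ω → (∇ (uu H k0 Umin p q) x =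
      (am H H1 k0 Umin p q x / p x) • ∇ p x + (am H H1 k0 Umin q p x / q x) • ∇ q x ∧
    TLm v (uu H k0 Umin p q) x (GG H H1 kap k0 Umin e η p q potp potq x)) := by
  filter_upwards [ae_diff D.op (D.sp.sc.locLip D.op), ae_diff D.op (D.sq.sc.locLip D.op),
    ae_diff D.op (D.scU.locLip D.op)] with x h1 h2 h3 hx
  exact D.point hx (h1 hx) (h2 hx) (h3 hx)

/-- **the block** -/
theorem sumS : Out v p q Ω e potp potq H H1 kap k0 Umin η where
  sc := D.scu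
  lam := ⟨D.lb_am, D.symm.lb_am⟩
  lb := D.lb_GG
  grad := D.ae_point.mono fun _ h hx => (h hx).1
  weak _ h1 h2 h3 h4 := weak_TLm D.sol D.op D.scu D.lb_GG
    (D.ae_point.mono fun _ h hx _ => (h hx).2) h1 h2 h3 h4

omit D

/-! ### the amplification factors -/

theorem am_nonneg (hH : HDes H H1 H2) (hk0 : 0 < k0) (hU : 0 < Umin) (ha : 0 < p x) :
    0 ≤ am H H1 k0 Umin p q x :=
  div_nonneg (mul_nonneg (mul_nonneg (cw_nonneg hk0 _ _ _) (hH.pos1 _ ha).le) ha.le)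
    (UU_pos hU x).le

theorem am_of_le (h : UU H k0 Umin p q x ≤ Umin) : am H H1 k0 Umin p q x = 0 := by
  rw [am, cw_of_le ((le_max_left _ _).trans h), zero_mul, zero_mul, zero_div]

/-- the fraction `θ = cw H(p) / U ∈ [0,1]` of the side `p` -/
def th (H : ℝ → ℝ) (k0 Umin : ℝ) (p q : EE n → ℝ) (x : EE n) : ℝ :=
  cw k0 Umin (H (p x)) (H (q x)) * H (p x) / UU H k0 Umin p q x

theorem am_eq_th (hH : HDes H H1 H2) (ha : 0 < p x) :
    am H H1 k0 Umin p q x = th H k0 Umin p q x * (H1 (p x) * p x / H (p x)) := by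
  have := (hH.pos _ ha).ne'
  rw [am, th]; field_simp

theorem th_nonneg (hH : HDes H H1 H2) (hk0 : 0 < k0) (hU : 0 < Umin) (ha : 0 < p x) :
    0 ≤ th H k0 Umin p q x :=
  div_nonneg (mul_nonneg (cw_nonneg hk0 _ _ _) (hH.pos _ ha).le) (UU_pos hU x).le

theorem th_add_le (hH : HDes H H1 H2) (hk0 : 0 < k0) (hk1 : k0 < 1) (hU : 0 < Umin)
    (ha : 0 < p x) (hb : 0 < q x) : th H k0 Umin p q x + th H k0 Umin q p x ≤ 1 := by
  rw [th, th, UU_comm H k0 Umin q p, ← add_div, div_le_one (UU_pos hU x)]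
  by_cases h0 : U0 k0 (H (p x)) (H (q x)) ≤ Umin
  · rw [cw_of_le h0, cw_of_le (by rwa [U0_comm])]
    simpa using (UU_pos hU x).le
  · rw [cw_eq hk0 hk1 (hH.pos _ ha) (hH.pos _ hb) (not_le.1 h0)]
    exact le_max_left _ _

/-- an active side carries a definite fraction of `U` -/
theorem th_ge (hH : HDes H H1 H2) (hk0 : 0 < k0) (hk1 : k0 < 1) (hU : 0 < Umin)
    (ha : 0 < p x) (hb : 0 < q x) (h : th H k0 Umin p q x ≠ 0) : k0 / 2 ≤ th H k0 Umin p q x := by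
  have hA := hH.pos _ ha
  have hB := hH.pos _ hb
  by_cases h0 : U0 k0 (H (p x)) (H (q x)) ≤ Umin
  · exact absurd (by rw [th, cw_of_le h0]; simp) h
  have e := cw_eq hk0 hk1 hA hB (not_le.1 h0)
  rw [th, le_div_iff₀ (UU_pos hU x), UU, max_eq_left (not_le.1 h0).le, ← e]
  rcases cw_cases hk0 hk1 hA hB (not_le.1 h0) with ⟨h1, h2, -⟩ | ⟨h1, -, -⟩ | ⟨h1, h2, -, h4⟩
  · rw [h1, h2]; nlinarith [mul_pos hA hk0]
  · exact absurd (by rw [th, h1]; simp) h
  · rw [h1, h2]; nlinarith [mul_pos hA hk0]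

end

end Crest.Agent.N067.W
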