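import Crest.Agent.N067.W.Defs
import Crest.Agent.N067.A.Gib

/-!
# Row 67, block W (helper47): calculus of barrier inequalities `TLm`, convex profiles `HDes`
-/

set_option autoImplicit false

open MeasureTheory Laplacian InnerProductSpace Topology Filter Set Metric
open scoped RealInnerProductSpace ContDiff Gradient NNReal

namespace Crest.Agent.N067.W

open Crest.Agent.R077 V

noncomputable section

variable {n : ℕ} {v U W : EE n → ℝ} {x : EE n} {g g' : ℝ} {Ω : Set (EE n)}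

theorem TLm.mono (h : TLm v U x g) (hg : g' ≤ g) : TLm v U x g' := fun ε hε =>
  let ⟨f, h1, h2⟩ := h ε hε
  ⟨f, h1, by linarith⟩

theorem TLm.of_touch {f : EE n → ℝ} (h : Touch U f x) (hg : g ≤ Lm v f x) : TLm v U x g :=
  fun _ hε => ⟨f, h, by linarith⟩

theorem TLm.add (h : TLm v U x g) (h' : TLm v W x g') :
    TLm v (fun y => U y + W y) x (g + g') := fun ε hε => by
  obtain ⟨f, h1, h2⟩ := h (ε / 2) (half_pos hε)
  obtain ⟨f', h3, h4⟩ := h' (ε / 2) (half_pos hε)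
  exact ⟨_, h1.add h3, by rw [Lm_add h1.c2 h3.c2]; linarith⟩

theorem touch_smul {f : EE n → ℝ} (h : Touch U f x) {c : ℝ} (hc : 0 ≤ c) :
    Touch (fun y => c * U y) (fun y => c * f y) x :=
  ⟨contDiffAt_const.mul h.c2, by rw [h.eq], h.le.mono fun _ hy => mul_le_mul_of_nonneg_left hy hc⟩

theorem TLm.smul (h : TLm v U x g) {c : ℝ} (hc : 0 ≤ c) : TLm v (fun y => c * U y) x (c * g) :=
  fun ε hε => by
    obtain ⟨f, h1, h2⟩ := h (ε / (c + 1)) (by positivity)
    refine ⟨_, touch_smul h1 hc, ?_⟩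
    rw [Lm_const_mul h1.c2]
    have h3 : c * (ε / (c + 1)) ≤ ε := by
      rw [mul_div_assoc', div_le_iff₀ (by positivity)]; nlinarith
    nlinarith [mul_le_mul_of_nonneg_left h2 hc]

theorem TLm.of_le (h : TLm v U x g) (he : U x = W x) (hl : ∀ᶠ y in 𝓝 x, U y ≤ W y) :
    TLm v W x g := fun ε hε =>
  let ⟨f, h1, h2⟩ := h ε hε
  ⟨f, ⟨h1.c2, h1.eq.trans he, (h1.le.and hl).mono fun _ hy => hy.1.trans hy.2⟩, h2⟩

theorem TLm.convex (h : TLm v U x g) (h' : TLm v U x g') {η : ℝ} (h0 : 0 ≤ η) (h1 : η ≤ 1) :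
    TLm v U x ((1 - η) * g + η * g') :=
  ((h.smul (sub_nonneg.2 h1)).add (h'.smul h0)).of_le (by ring)
    (Eventually.of_forall fun y => le_of_eq (by ring))

theorem TLm.const (c : ℝ) : TLm v (fun _ => c) x 0 :=
  TLm.of_touch (Touch.refl contDiffAt_const) (Lm_const c).ge

theorem gsq_touch {f : EE n → ℝ} (h : Touch U f x) (hU : DifferentiableAt ℝ U x) :
    gsq f x = gsq U x := by simp only [gsq, h.pdv_eq hU]

/-- composition with a monotone `C²` function -/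
theorem TLm.comp2 (h : TLm v U x g) (hU : DifferentiableAt ℝ U x) {F F1 : ℝ → ℝ} {F2 : ℝ}
    {J : Set ℝ} (hJ : J ∈ 𝓝 (U x)) (hF : ContDiffAt ℝ 2 F (U x)) (hm : MonotoneOn F J)
    (h1 : ∀ᶠ s in 𝓝 (U x), HasDerivAt F (F1 s) s) (h2 : HasDerivAt F1 F2 (U x))
    (h3 : 0 ≤ F1 (U x)) : TLm v (fun y => F (U y)) x (F1 (U x) * g + F2 * gsq U x) := fun ε hε => by
  obtain ⟨f, t1, t2⟩ := h (ε / (F1 (U x) + 1)) (by positivity)
  refine ⟨_, t1.comp1 hU.continuousAt hJ hF hm, ?_⟩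
  rw [Lm_comp t1.c2 (t1.eq ▸ hF) (t1.eq ▸ h1) (t1.eq ▸ h2), gsq_touch t1 hU, t1.eq]
  have h4 : F1 (U x) * (ε / (F1 (U x) + 1)) ≤ ε := by
    rw [mul_div_assoc', div_le_iff₀ (by positivity)]; nlinarith
  nlinarith [mul_le_mul_of_nonneg_left t2 h3]

theorem TLm.log (h : TLm v U x g) (hU : DifferentiableAt ℝ U x) (h0 : 0 < U x) :
    TLm v (fun y => Real.log (U y)) x (g / U x - gsq U x / U x ^ 2) := by
  have := h.comp2 hU (F := Real.log) (F1 := fun s => s⁻¹) (F2 := -(U x ^ 2)⁻¹) (J := Ioi 0)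
    (Ioi_mem_nhds h0) (Real.contDiffAt_log.2 h0.ne') Real.strictMonoOn_log.monotoneOn
    (by filter_upwards [Ioi_mem_nhds h0] with s hs using Real.hasDerivAt_log (ne_of_gt hs))
    (hasDerivAt_inv h0.ne') (inv_pos.2 h0).le
  refine this.mono (le_of_eq ?_)
  ring

/-- composition with a monotone function that has a lower `2`-jet -/
theorem TLm.comp (h : TLm v U x g) (hU : DifferentiableAt ℝ U x) {F : ℝ → ℝ} {F1 F2 : ℝ}
    {J : Set ℝ} (hJ : J ∈ 𝓝 (U x)) (hm : MonotoneOn F J) (h3 : 0 ≤ F1)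
    (hj : ∀ ε > 0, ∀ᶠ s in 𝓝 (0 : ℝ), F (U x) + F1 * s + (F2 - ε) * s ^ 2 / 2 ≤ F (U x + s)) :
    TLm v (fun y => F (U y)) x (F1 * g + F2 * gsq U x) := fun ε hε => by
  have hq := gsq_nonneg U x
  obtain ⟨f, t1, t2⟩ := h (ε / 2 / (F1 + 1)) (by positivity)
  set δ := ε / 2 / (gsq U x + 1) with hδ
  set K : ℝ → ℝ := fun s => F (U x) + F1 * (s - U x) + (F2 - δ) * (s - U x) ^ 2 / 2 with hK
  have cK : ContDiff ℝ 2 K := by rw [hK]; fun_prop
  have dK : ∀ s, HasDerivAt K (F1 + (F2 - δ) * (s - U x)) s := fun s => by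
    have h1 := (hasDerivAt_id s).sub_const (U x)
    refine (((h1.const_mul F1).const_add (F (U x))).fun_add
      (((h1.fun_pow 2).const_mul (F2 - δ)).div_const 2)).congr_deriv ?_
    simp only [id]; ring
  have dK1 : HasDerivAt (fun s => F1 + (F2 - δ) * (s - U x)) (F2 - δ) (f x) := by
    simpa using (((hasDerivAt_id (f x)).sub_const (U x)).const_mul (F2 - δ)).const_add F1
  have cf := t1.c2.continuousAt
  have h4 : Tendsto (fun y => f y - U x) (𝓝 x) (𝓝 0) := by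
    simpa [t1.eq] using cf.tendsto.sub_const (U x)
  refine ⟨fun y => K (f y), ⟨cK.contDiffAt.comp x t1.c2, by simp [hK, t1.eq], ?_⟩, ?_⟩
  · filter_upwards [h4.eventually (hj δ (by positivity)), t1.le,
      cf.preimage_mem_nhds (t1.eq ▸ hJ), hU.continuousAt.preimage_mem_nhds hJ] with y a1 a2 a3 a4
    rw [add_sub_cancel] at a1
    exact a1.trans (hm a3 a4 a2)
  · rw [Lm_comp t1.c2 cK.contDiffAt (Eventually.of_forall dK) dK1, gsq_touch t1 hU, t1.eq]
    have h5 : F1 * (ε / 2 / (F1 + 1)) ≤ ε / 2 := by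
      rw [mul_div_assoc', div_le_iff₀ (by positivity)]; nlinarith
    have h6 : δ * gsq U x ≤ ε / 2 := by
      rw [hδ, div_mul_eq_mul_div, div_le_iff₀ (by positivity)]; nlinarith
    nlinarith [mul_le_mul_of_nonneg_left t2 h3]

theorem dd_neg (hv : Sol v) : dd (fun x => -v x) = fun x => -dd v x := funext hv.dd_neg'

theorem Lm_neg_v (hv : Sol v) (f : EE n → ℝ) (x : EE n) : Lm (fun x => -v x) f x = Lm v f x := by
  rw [Lm_eq, Lm_eq, dd_neg hv]
  simp only [gin, pdv_neg, neg_mul, Finset.sum_neg_distrib]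
  ring

theorem hb_neg_v (hv : Sol v) (x a b : EE n) : hb (dd fun x => -v x) x a b = -hb (dd v) x a b := by
  rw [dd_neg hv, hb, hb, show fderiv ℝ (fun x => -dd v x) = fun y => -fderiv ℝ (dd v) y from
    funext fun y => fderiv_fun_neg, fderiv_fun_neg]
  rfl

theorem TLm.neg_v (hv : Sol v) (h : TLm (fun x => -v x) U x g) : TLm v U x g := fun ε hε =>
  let ⟨f, h1, h2⟩ := h ε hε
  ⟨f, h1, by rwa [Lm_neg_v hv] at h2⟩

/-- the weak form of a barrier inequality -/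
theorem weak_TLm (hv : Sol v) (hΩ : IsOpen Ω) (hU : SC Ω U) {G ζ : EE n → ℝ} (hG : LB Ω G)
    (hb : ∀ᵐ x, x ∈ Ω → DifferentiableAt ℝ U x → TLm v U x (G x))
    (hζ : LocallyLipschitzOn Ω ζ) (h0 : ∀ x, 0 ≤ ζ x) (hc : HasCompactSupport ζ)
    (hs : tsupport ζ ⊆ Ω) : ∫ x, ζ x * G x * psi v x ^ 2 ≤ -∫ x, gin U ζ x * psi v x ^ 2 := by
  refine weak_Lm hv hΩ hU hζ h0 hc hs ?_ (hb.mono fun x hx h1 => hx (hs (subset_tsupport _ h1)))
  exact (((LB.of_cont hΩ hζ.continuousOn).mul hG).mul (LB.of_cont hΩ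
    (hv.psi_sm.continuous.fun_pow 2).continuousOn)).integrable hc.isCompact hs fun x hx => by
      rw [image_eq_zero_of_notMem_tsupport hx, zero_mul, zero_mul]

/-! ### convex profiles -/

variable {H H1 H2 : ℝ → ℝ}

theorem HDes.tan (h : HDes H H1 H2) {y z : ℝ} (hy : 0 < y) (hz : 0 < z) :
    H y + H1 y * (z - y) ≤ H z := by
  have key : ∀ a b, 0 < a → a < b → ∃ c ∈ Ioo a b, H1 c * (b - a) = H b - H a := fun a b ha hab => by
    obtain ⟨c, hc, h1⟩ := exists_hasDerivAt_eq_slope H H1 hab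
      (fun t ht => (h.hd t (ha.trans_le ht.1)).continuousAt.continuousWithinAt)
      fun t ht => h.hd t (ha.trans ht.1)
    exact ⟨c, hc, by rw [h1, div_mul_cancel₀ _ (sub_pos.2 hab).ne']⟩
  rcases lt_trichotomy y z with h1 | rfl | h1
  · obtain ⟨c, hc, h2⟩ := key y z hy h1
    have := h.mono hy (hy.trans hc.1) hc.1.le
    nlinarith
  · simp
  · obtain ⟨c, hc, h2⟩ := key z y hz h1
    have := h.mono (hz.trans hc.1) hy hc.2.le
    nlinarith

theorem HDes.strictMono (h : HDes H H1 H2) : StrictMonoOn H (Ioi 0) := fun y hy z hz hyz => by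
  have := h.tan hy hz
  nlinarith [mul_pos (h.pos1 y hy) (sub_pos.2 hyz)]

/-- `H y / y` is increasing -/
theorem HDes.ratio (h : HDes H H1 H2) {y z : ℝ} (hy : 0 < y) (hyz : y ≤ z) : z * H y ≤ y * H z := by
  have h1 := h.tan hy (hy.trans_le hyz)
  nlinarith [mul_le_mul_of_nonneg_left h1 hy.le,
    mul_le_mul_of_nonneg_left (h.le y hy) (sub_nonneg.2 hyz)]

theorem HDes.sc (h : HDes H H1 H2) (hΩ : IsOpen Ω) (hU : SC Ω U) (h0 : ∀ x ∈ Ω, 0 < U x) :
    SC Ω fun x => H (U x) := by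
  intro K hKΩ hK
  obtain ⟨C, δ, hC, hδ, h1⟩ := hU K hKΩ hK
  obtain ⟨δ', hδ', h2⟩ := hK.exists_cthickening_subset_open hΩ hKΩ
  obtain ⟨M, hM⟩ := hK.exists_bound_of_continuousOn ((hU.locLip hΩ).continuousOn.mono hKΩ)
  have hM1 : 0 < |M| + 1 := by positivity
  have hD := (h.pos1 _ hM1).le
  refine ⟨H1 (|M| + 1) * C, min δ δ', mul_nonneg hD hC, lt_min hδ hδ', fun x hx => ?_⟩
  obtain ⟨p, hp, h3⟩ := h1 x hx
  have h4 := h0 x (hKΩ hx)
  have h5 := (h.pos1 _ h4).le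
  have h6 : H1 (U x) ≤ H1 (|M| + 1) := h.mono h4 hM1 (by
    linarith [le_abs_self (U x), le_abs_self M, hM x hx, Real.norm_eq_abs (U x)])
  refine ⟨H1 (U x) • p, ?_, fun y hy => ?_⟩
  · rw [norm_smul, Real.norm_eq_abs, abs_of_nonneg h5]
    exact mul_le_mul h6 hp (norm_nonneg _) hD
  · have h7 := h.tan h4 (h0 (x + y) (h2 (mem_cthickening_of_dist_le _ x _ _ hx
      (by simpa using hy.trans (min_le_right _ _)))))
    have h8 := mul_le_mul_of_nonneg_left (h3 y (hy.trans (min_le_left _ _))) h5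
    rw [real_inner_smul_left]
    nlinarith [mul_le_mul_of_nonneg_right h6 (by positivity : 0 ≤ C * ‖y‖ ^ 2)]

theorem HDes.tlm (h : HDes H H1 H2) (ht : TLm v U x g) (hU : DifferentiableAt ℝ U x)
    (h0 : 0 < U x) : TLm v (fun y => H (U y)) x (H1 (U x) * g + H2 (U x) * gsq U x) :=
  ht.comp hU (Ioi_mem_nhds h0) h.strictMono.monotoneOn (h.pos1 _ h0).le (h.jet _ h0)

theorem sc_smul (hΩ : IsOpen Ω) (hU : SC Ω U) {c : ℝ} (hc : 0 ≤ c) : SC Ω fun x => c * U x :=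
  hU.comp1 hΩ (F := fun s => c * s) isOpen_univ (by fun_prop)
    (fun _ _ _ _ h => mul_le_mul_of_nonneg_left h hc) fun _ _ => mem_univ _

theorem sc_const (c : ℝ) : SC Ω fun _ => c := SC.of_contDiffAt fun _ _ => contDiffAt_const

/-- a criterion for the lower `2`-jet: one-sided bounds on the increments of `H1` -/
theorem jet_of_slope {y c : ℝ} (hd : ∀ᶠ s in 𝓝 y, HasDerivAt H (H1 s) s)
    (h : ∀ ε > 0, ∀ᶠ s in 𝓝 (0 : ℝ), (c - ε) * s ^ 2 ≤ (H1 (y + s) - H1 y) * s) :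
    ∀ ε > 0, ∀ᶠ s in 𝓝 (0 : ℝ), H y + H1 y * s + (c - ε) * s ^ 2 / 2 ≤ H (y + s) := by
  intro ε hε
  have h0 : Tendsto (fun s : ℝ => y + s) (𝓝 0) (𝓝 y) :=
    Continuous.tendsto' (by fun_prop) 0 y (by simp)
  obtain ⟨r, hr, h1⟩ := Metric.eventually_nhds_iff_ball.1 ((h ε hε).and (h0.eventually hd))
  have hD : ∀ s ∈ ball (0 : ℝ) r, HasDerivAt
      (fun s => H (y + s) - (H1 y * s + (c - ε) * s ^ 2 / 2))
      (H1 (y + s) - (H1 y + (c - ε) * s)) s := fun s hs => by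
    refine (((h1 s hs).2.comp_const_add y s).fun_sub (((hasDerivAt_id s).const_mul (H1 y)).fun_add
      ((((hasDerivAt_id s).fun_pow 2).const_mul (c - ε)).div_const 2))).congr_deriv ?_
    simp only [id]; ring
  filter_upwards [ball_mem_nhds 0 hr] with s hs
  have hs' := abs_lt.1 (by simpa using hs : |s| < r)
  rcases lt_trichotomy s 0 with h2 | rfl | h2
  · have hm : ∀ t ∈ Icc s 0, t ∈ ball (0 : ℝ) r := fun t ht => by
      simp only [mem_ball, dist_zero_right, Real.norm_eq_abs, abs_lt]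
      constructor <;> linarith [ht.1, ht.2]
    obtain ⟨t, ht, h3⟩ := exists_hasDerivAt_eq_slope _ _ h2
      (fun t ht => (hD t (hm t ht)).continuousAt.continuousWithinAt)
      fun t ht => hD t (hm t (Ioo_subset_Icc_self ht))
    rw [eq_div_iff (by linarith)] at h3
    have h4 := (h1 t (hm t (Ioo_subset_Icc_self ht))).1
    have h5 : H1 (y + t) - (H1 y + (c - ε) * t) ≤ 0 := by
      by_contra h6
      nlinarith [mul_pos (not_le.1 h6) (neg_pos.2 ht.2)]
    simp only [add_zero, mul_zero, ne_eq, OfNat.ofNat_ne_zero, not_false_eq_true, zero_pow,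
      zero_div, sub_zero, zero_sub] at h3
    nlinarith [mul_nonneg (neg_nonneg.2 h5) (neg_pos.2 h2).le]
  · simp
  · have hm : ∀ t ∈ Icc 0 s, t ∈ ball (0 : ℝ) r := fun t ht => by
      simp only [mem_ball, dist_zero_right, Real.norm_eq_abs, abs_lt]
      constructor <;> linarith [ht.1, ht.2]
    obtain ⟨t, ht, h3⟩ := exists_hasDerivAt_eq_slope _ _ h2
      (fun t ht => (hD t (hm t ht)).continuousAt.continuousWithinAt)
      fun t ht => hD t (hm t (Ioo_subset_Icc_self ht))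
    rw [eq_div_iff (by linarith)] at h3
    have h4 := (h1 t (hm t (Ioo_subset_Icc_self ht))).1
    have h5 : 0 ≤ H1 (y + t) - (H1 y + (c - ε) * t) := by
      by_contra h6
      nlinarith [mul_pos (neg_pos.2 (not_le.1 h6)) ht.1]
    simp only [add_zero, mul_zero, ne_eq, OfNat.ofNat_ne_zero, not_false_eq_true, zero_pow,
      zero_div, sub_zero] at h3
    nlinarith [mul_nonneg h5 h2.le]

end

end Crest.Agent.N067.W
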